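import Vale.Agent.P315R45.Defs

/-! The word RAM of `P315R45.Defs` with the accuracy as a part of the input. -/

set_option autoImplicit false

namespace Vale.Agent.N315

open Vale.Agent.P315 Vale.Agent.P315R45

/-- The initial configuration with the accuracy parameter `r`: the memory holds `|x|`, `|y|`, the
symbols of `x`, the symbols of `y` and then `r`, one in each word from address `0` on; all else
is `0`. -/
def startR (w : ℕ) (x y : List ℕ) (r : ℕ) : Cfg w where
  pc := 0
  reg := fun _ => 0
  mem := fun a => BitVec.ofNat w ((x.length :: y.length :: (x ++ y ++ [r])).getD a.toNat 0)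
  coins := 0

/-- The configuration after `T` steps on the input `x, y, r`. -/
def runR {w : ℕ} (P : List Instr) (ρ : ℕ → BitVec w) (x y : List ℕ) (r T : ℕ) : Cfg w :=
  (step P ρ)^[T] (startR w x y r)

/-- With words of `w` bits and on the input `x, y, r`, the program `P` halts within `T` steps
whatever the random words are, and for independent uniform random words register `0` holds after
`T` steps a number `D` with `ED x y ≤ D ≤ (1 + 1 / r) ED x y` with probability at least `2/3`. -/
def Scheme (P : List Instr) (w T : ℕ) (x y : List ℕ) (r : ℕ) : Prop :=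
  (∀ ρ : ℕ → BitVec w, P.length ≤ (runR P ρ x y r T).pc) ∧
    2 / 3 ≤ (Nat.card {ρ : Fin T → BitVec w //
      ED x y ≤ ((runR P (words ρ) x y r T).reg 0).toNat ∧
        ((((runR P (words ρ) x y r T).reg 0).toNat : ℕ) : ℝ) ≤ (1 + 1 / (r : ℝ)) * ED x y} : ℝ) /
      Nat.card (Fin T → BitVec w)

end Vale.Agent.N315
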