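import Vale.Agent.N315.Defs
import Vale.Agent.P315R45.Fin

/-! N315: compilation to the word RAM, for inputs with an accuracy parameter. -/

set_option autoImplicit false

namespace Vale.Agent.N315

open Vale.Agent.P315 Vale.Agent.P315R45

/-- The input as it stands in the memory, seen as array `0`. -/
def rawR (x y : List ℕ) (r : ℕ) : State where
  reg := fun _ => 0
  arr := fun j a => if j = 0 then (x.length :: y.length :: (x ++ y ++ [r])).getD a 0 else 0
  coins := 0

theorem rawR_lt {N : ℕ} {x y : List ℕ} {r : ℕ} (hN : x.length + y.length + 3 < N)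
    (hs : ∀ a ∈ x ++ (y ++ [r]), a < N) (a : ℕ) :
    (x.length :: y.length :: (x ++ y ++ [r])).getD a 0 < N := by
  rcases Nat.lt_or_ge a (x.length :: y.length :: (x ++ y ++ [r])).length with h | h
  · rw [List.getD_eq_getElem _ _ h]
    have := List.getElem_mem h
    simp only [List.mem_cons] at this
    rcases this with e | e | e
    · omega
    · omega
    · exact hs _ (List.append_assoc x y [r] ▸ e)
  · rw [List.getD_eq_default _ _ h]; omega

/-- Count the accuracy parameter as a symbol of the second string. -/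
def fix : Prog := .put 0 (.lit 1) (.op .add (.get 0 (.lit 1)) (.lit 1))

theorem fix_exec {N : ℕ} (ρ : ℕ → ℕ) {x y : List ℕ} {r : ℕ} (hN : y.length + 1 < N) :
    Exec N ρ fix (rawR x y r) 6 (raw x (y ++ [r])) := by
  have h := exec_of_top (N := N) (ρ := ρ) (by omega) fix (rawR x y r) (by
    simp [fix, Prog.top, Expr.top, Expr.eval, Op.eval, rawR]
    omega)
  have e : fix.run ρ (rawR x y r) = raw x (y ++ [r]) := by
    simp only [fix, Prog.run, Expr.eval, Op.eval, rawR, raw, State.setArr]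
    congr 1
    funext j a
    by_cases hj : j = 0
    · subst hj
      rcases a with _ | _ | a <;> simp
    · simp [hj]
  rw [e] at h
  exact h

theorem head_simR {b c : ℕ} (hb : 1 ≤ b) (hc : 1 ≤ c) (ρ : ℕ → BitVec (b + c)) {x y : List ℕ}
    {r : ℕ} (hN : x.length + y.length + 3 < 2 ^ b) (hs : ∀ a ∈ x ++ (y ++ [r]), a < 2 ^ b) :
    Sim b c 0 (rawR x y r) (execL ρ (head c) (startR (b + c) x y r)) := by
  have hlt' : 2 ^ b < 2 ^ (b + c) := Nat.pow_lt_pow_right (by omega) (by omega)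
  have h := head_sim hb hc ρ (x := x) (y := y ++ [r]) (by simp; omega) hs
  refine ⟨h.reg, fun j a hj ha => ?_, rfl, h.base⟩
  show (BitVec.ofNat _ ((x.length :: y.length :: (x ++ y ++ [r])).getD
    (BitVec.ofNat _ ((j + 0) * 2 ^ b + a)).toNat 0)).toNat = _
  rw [BitVec.toNat_ofNat, BitVec.toNat_ofNat, Nat.mod_eq_of_lt (addr_lt hj ha),
    Nat.mod_eq_of_lt ((rawR_lt hN hs _).trans hlt')]
  by_cases h0 : j = 0
  · subst h0; simp [rawR]
  · have : 1 * 2 ^ b ≤ (j + 0) * 2 ^ b := Nat.mul_le_mul_right _ (by omega)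
    rw [List.getD_eq_default _ _ (by
      simp only [List.length_cons, List.length_append, List.length_nil]; omega)]
    simp [rawR, h0]

/-- The compiled program. -/
def fullR (c : ℕ) (Q : Prog) : List Instr :=
  head c ++ (compP c 0 (.seq fix pro) 1 6 ++
    (compP c 1 Q 1 (6 + lenP (.seq fix pro)) ++ [.op .or 0 8 8]))

theorem fullR_run {b c : ℕ} (hb : 1 ≤ b) (hc : 2 ≤ c) {Q : Prog} (hQ : mxP Q + 1 ≤ 2 ^ c)
    (ρ : ℕ → BitVec (b + c)) {x y : List ℕ} {r : ℕ} (hN : x.length + y.length + 3 < 2 ^ b)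
    (hs : ∀ a ∈ x ++ (y ++ [r]), a < 2 ^ b) {t : ℕ} {s : State}
    (h : Exec (2 ^ b) (fun i => (ρ i).toNat / 2 ^ c) Q (State.init x (y ++ [r])) t s) :
    ∃ g, Run (fullR c Q) ρ (startR (b + c) x y r) g
        (4 * t + (32 * (x.length + y.length) + 200)) ∧
      (fullR c Q).length ≤ g.pc ∧ (g.reg 0).toNat = s.reg 2 := by
  have hA : At (fullR c Q) 0 (fullR c Q) := fun i I hi => by rwa [Nat.zero_add]
  have r1 := Run.lin (ρ := ρ) (L := head c) (g := startR (b + c) x y r) rfl hA.left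
  have hA1 := hA.right (n := 6) rfl
  obtain ⟨t0, s0, e0, ht0, q1, q2, q3⟩ := pro_exec (fun i => (ρ i).toNat / 2 ^ c)
    (x := x) (y := y ++ [r]) (N := 2 ^ b) (by simp; omega) hs
  have e1 := Exec.seq _ _ _ _ _ _ _ (fix_exec _ (by omega)) e0
  have h4 : 2 ^ 2 ≤ 2 ^ c := Nat.pow_le_pow_right (by omega) hc
  obtain ⟨g2, r2, p2, S2, -⟩ := execP hb (by omega) e1 1 (execL ρ (head c) (startR (b + c) x y r))
    le_rfl (show 3 + 0 ≤ 2 ^ c by omega) hA1.left (head_simR hb (by omega) ρ hN hs)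
  have p2' : g2.pc = 6 + lenP (.seq fix pro) := p2
  have S2' : Sim b c 1 (State.init x (y ++ [r])) g2 :=
    ⟨fun i => by rw [S2.reg, q1], fun j a hj ha => by rw [← q2 j]; exact S2.arr (j + 1) a hj ha,
      S2.coins.trans q3, S2.base⟩
  have hA2 := hA1.right (n := g2.pc) (by rw [p2', compP_len])
  obtain ⟨g3, r3, p3, S3, -⟩ := execP hb (by omega) h 1 g2 le_rfl hQ
    (by rw [← p2'] at hA2; exact hA2.left) S2'
  have hA3 := hA2.right (n := g3.pc) (by rw [p3, compP_len])
  refine ⟨_, (((r1.trans r2).trans r3).trans (Run.one hA3.head)).mono ?_, ?_, ?_⟩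
  · simp only [List.length_append, List.length_singleton] at ht0
    simp [head]
    omega
  · simp only [Instr.exec, set_pc, p3, p2', fullR, List.length_append, compP_len]
    simp [head]
    omega
  · simp only [Instr.exec, set_same, WOp.eval, BitVec.or_self]
    exact S3.reg 2

/-- From the structured machine to the word RAM. -/
theorem flat {b c T A : ℕ} {P : List Instr} {g0 : Cfg (b + c)} {Q : Prog} {s0 : State}
    (good : ℕ → Prop)
    (hrun : ∀ (ρ : ℕ → BitVec (b + c)) (t : ℕ) (s : State),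
      Exec (2 ^ b) (fun i => (ρ i).toNat / 2 ^ c) Q s0 t s →
      ∃ g, Run P ρ g0 g (4 * t + A) ∧ P.length ≤ g.pc ∧ (g.reg 0).toNat = s.reg 2)
    (H1 : ∀ ρ : ℕ → ℕ, (∀ i, ρ i < 2 ^ b) → ∃ (m : ℕ) (s : State),
      Exec (2 ^ b) ρ Q s0 m s ∧ 4 * m + A ≤ T)
    (H2 : 2 * Nat.card (Fin T → Fin (2 ^ b)) ≤ 3 * Nat.card {ρ : Fin T → Fin (2 ^ b) //
      ∃ (m : ℕ) (s : State), Exec (2 ^ b) (tape ρ) Q s0 m s ∧ good (s.reg 2)}) :
    (∀ ρ : ℕ → BitVec (b + c), P.length ≤ ((step P ρ)^[T] g0).pc) ∧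
      2 / 3 ≤ (Nat.card {ρ : Fin T → BitVec (b + c) //
        good (((step P (words ρ))^[T] g0).reg 0).toNat} : ℝ) /
          Nat.card (Fin T → BitVec (b + c)) := by
  have halt : ∀ ρ : ℕ → BitVec (b + c), P.length ≤ ((step P ρ)^[T] g0).pc := by
    intro ρ
    obtain ⟨m, s, he, hm⟩ := H1 (fun i => (ρ i).toNat / 2 ^ c) fun i =>
      Nat.div_lt_of_lt_mul (by rw [Nat.mul_comm, ← pow_add]; exact (ρ i).isLt)
    obtain ⟨g, r, hg, -⟩ := hrun ρ m s he
    rw [r.final hg hm]
    exact hg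
  refine ⟨halt, ?_⟩
  have h0 : (0 : ℝ) < Nat.card (Fin T → BitVec (b + c)) := Nat.cast_pos.2 Nat.card_pos
  rw [div_le_div_iff₀ (by norm_num) h0, mul_comm _ (3 : ℝ)]
  norm_cast
  refine (card_transfer _ H2).trans (Nat.mul_le_mul_left _ ?_)
  refine Nat.card_le_card_of_injective (Subtype.map id fun ρ hρ => ?_)
    (Subtype.map_injective _ Function.injective_id)
  obtain ⟨m, s, he, hg⟩ := hρ
  rw [tape_words] at he
  obtain ⟨g, r, hg', hv⟩ := hrun (words ρ) m s he
  have e : (step P (words ρ))^[T] g0 = g := by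
    have e1 := r.final hg' (Nat.le_add_right _ T)
    rw [Function.iterate_add_apply] at e1
    rw [← e1]
    exact (step_halt (halt (words ρ)) _).symm
  simp only [id, e, hv]
  exact hg

theorem split_w {σ X k c w : ℕ} (hσ : 0 < σ) (hX : 2 ≤ X) (h : σ * X ^ (k + c) ≤ 2 ^ w) :
    ∃ b, w = b + c ∧ X ^ k ≤ 2 ^ b ∧ σ ≤ 2 ^ b := by
  have h1 : σ * X ^ k * 2 ^ c ≤ 2 ^ w := by
    refine le_trans ?_ h
    rw [pow_add X k, ← Nat.mul_assoc]
    exact Nat.mul_le_mul_left _ (Nat.pow_le_pow_left hX _)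
  have hp : 0 < X ^ k := Nat.pow_pos (by omega)
  obtain ⟨b, rfl⟩ : ∃ b, w = b + c := by
    have : 2 ^ c ≤ 2 ^ w := (Nat.le_mul_of_pos_left _ (Nat.mul_pos hσ hp)).trans h1
    exact ⟨w - c, by have := (Nat.pow_le_pow_iff_right (by omega)).1 this; omega⟩
  rw [pow_add 2 b c] at h1
  have h2 := Nat.le_of_mul_le_mul_right h1 (Nat.two_pow_pos c)
  exact ⟨b, rfl, (Nat.le_mul_of_pos_left _ hσ).trans h2, (Nat.le_mul_of_pos_right _ hp).trans h2⟩

theorem runR_words (w T : ℕ) (P : List Instr) (ρ : ℕ → BitVec w) (x y : List ℕ) (r : ℕ) :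
    runR P ρ x y r T = runR P (words fun i : Fin T => ρ i) x y r T :=
  iter_tape P T _ fun i hi => by
    have : i < T := by simpa [startR] using hi
    simp [words, this]

end Vale.Agent.N315
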