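import Vale.Agent.P315.H140.Coins

/-! N315: the accuracy is read from the input and stored in the length of a padding. -/

set_option autoImplicit false

namespace Vale.Agent.N315

open Vale.Agent.P315

theorem lev_snoc_same (a : ℕ) (x y : List ℕ) : lev (x ++ [a]) (y ++ [a]) = lev x y := by
  have h1 := lev_drop_right x y [a]
  have h2 := lev_drop_right y x [a]
  have h3 : lev y x = lev x y := le_antisymm (script_lev x y).symm.lev_le
    (script_lev y x).symm.lev_le
  have h4 : lev y (x ++ [a]) = lev (x ++ [a]) y := le_antisymm (script_lev _ y).symm.lev_le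
    (script_lev y _).symm.lev_le
  rw [lev_snoc_snoc, if_pos rfl]
  simp only [List.length_singleton] at h1 h2
  omega

/-- A common suffix does not change the edit distance. -/
theorem ED_pad (x y : List ℕ) (p : ℕ) :
    ED (x ++ List.replicate p 0) (y ++ List.replicate p 0) = ED x y := by
  rw [ED_eq_lev, ED_eq_lev]
  induction p with
  | zero => simp
  | succ p ih =>
    rw [List.replicate_succ', ← List.append_assoc, ← List.append_assoc, lev_snoc_same, ih]

theorem getD_pad (x : List ℕ) (p i : ℕ) : (x ++ List.replicate p 0).getD i 0 = x.getD i 0 := by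
  rcases lt_or_ge i x.length with h | h
  · rw [List.getD_append _ _ _ _ h]
  · rw [List.getD_append_right _ _ _ _ h, List.getD_eq_default x _ h]
    rcases lt_or_ge (i - x.length) p with h' | h'
    · exact List.getD_replicate _ h'
    · exact List.getD_eq_default _ _ (by simpa using h')

/-- Read the last symbol of the second string and remove it. -/
def rd : Prog :=
  .seq (.set 1 (.op .sub (.reg 1) (.lit 1))) (.seq (.set 2 (.get 1 (.reg 1)))
    (.put 1 (.reg 1) (.lit 0)))

theorem rd_exec {N : ℕ} (ρ : ℕ → ℕ) {x y : List ℕ} {r : ℕ} (hy : y.length + 1 < N) (hr : r < N) :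
    Exec N ρ rd (State.init x (y ++ [r])) 10 ((State.init x y).setReg 2 r) := by
  have h := exec_of_top (N := N) (ρ := ρ) (by omega) rd (State.init x (y ++ [r])) (by
    simp [rd, Prog.top, Prog.run, Expr.top, Expr.eval, Op.eval, State.init]
    omega)
  have e : rd.run ρ (State.init x (y ++ [r])) = (State.init x y).setReg 2 r := by
    simp only [rd, Prog.run, Expr.eval, Op.eval, State.init, State.setReg, State.setArr]
    congr 1
    · funext i
      by_cases h2 : i = 2
      · simp [h2]
      by_cases h1 : i = 1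
      · simp [h1]
      · simp [h1, h2]
    · funext j i
      by_cases h1 : j = 1
      · subst h1
        by_cases hi : i = y.length
        · simp [hi]
        · rcases lt_or_gt_of_ne hi with h | h
          · simp [hi, List.getElem?_append_left h]
          · simp [hi, List.getElem?_eq_none h.le,
              List.getElem?_eq_none (show (y ++ [r]).length ≤ i by simpa using h)]
      · simp [h1]
  rw [e] at h
  exact h

/-- One round of the two doubling loops. -/
def body : Prog :=
  .seq (.set 8 (.op .lt (.reg 4) (.reg 2)))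
  (.seq (.set 4 (.op .add (.reg 4) (.op .mul (.reg 4) (.reg 8))))
  (.seq (.set 5 (.op .add (.reg 5) (.reg 8)))
  (.seq (.set 8 (.op .lt (.op .mul (.lit 2) (.reg 6)) (.op .add (.reg 3) (.lit 1))))
  (.seq (.set 6 (.op .add (.reg 6) (.op .mul (.reg 6) (.reg 8))))
    (.set 7 (.op .add (.reg 7) (.reg 8)))))))

theorem dbl (t a : ℕ) : min t a + (if min t a < a then 1 else 0) = min (t + 1) a ∧
    2 ^ min t a + 2 ^ min t a * (if min t a < a then 1 else 0) = 2 ^ min (t + 1) a := by
  by_cases h : min t a < a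
  · have e : min (t + 1) a = min t a + 1 := by omega
    rw [if_pos h, e, pow_succ]
    omega
  · have e : min (t + 1) a = min t a := by omega
    rw [if_neg h, e]
    omega

theorem body_spec {E : Env} {s : State} {m r t : ℕ} (hm : m ≠ 0) (hr : 1 ≤ r)
    (hR : 128 * r + 3 * m ≤ E.R) (h2 : s.reg 2 = 64 * r) (h3 : s.reg 3 = m)
    (h4 : s.reg 4 = 2 ^ min t (Nat.clog 2 (64 * r))) (h5 : s.reg 5 = min t (Nat.clog 2 (64 * r)))
    (h6 : s.reg 6 = 2 ^ min t (Nat.log 2 m)) (h7 : s.reg 7 = min t (Nat.log 2 m)) :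
    Spec E s body 50 fun s' => s'.reg 4 = 2 ^ min (t + 1) (Nat.clog 2 (64 * r)) ∧
      s'.reg 5 = min (t + 1) (Nat.clog 2 (64 * r)) ∧
      s'.reg 6 = 2 ^ min (t + 1) (Nat.log 2 m) ∧ s'.reg 7 = min (t + 1) (Nat.log 2 m) := by
  have a1 : ∀ j, 2 ^ min j (Nat.clog 2 (64 * r)) ≤ 128 * r := fun j => by
    have b1 := Nat.pow_pred_clog_lt_self (by norm_num : 1 < 2) (show 1 < 64 * r by omega)
    have b2 : 2 ^ min j (Nat.clog 2 (64 * r)) ≤ 2 ^ ((Nat.clog 2 (64 * r)).pred + 1) :=
      Nat.pow_le_pow_right (by norm_num) (by rw [Nat.pred_eq_sub_one]; omega)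
    rw [pow_succ] at b2
    omega
  have a2 : ∀ j, 2 ^ min j (Nat.log 2 m) ≤ m := fun j =>
    (Nat.pow_le_pow_right (by norm_num) (min_le_right _ _)).trans (Nat.pow_log_le_self 2 hm)
  have a3 : ∀ j : ℕ, j ≤ 2 ^ j := fun j => Nat.lt_two_pow_self.le
  have c1 : ∀ j, 2 ^ j < 64 * r ↔ j < Nat.clog 2 (64 * r) := fun j =>
    (Nat.lt_clog_iff_pow_lt (by norm_num)).symm
  have c2 : ∀ j, 2 * 2 ^ j < m + 1 ↔ j < Nat.log 2 m := fun j => by
    rw [Nat.lt_succ_iff, ← pow_succ', ← Nat.le_log_iff_pow_le (by norm_num) hm]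
    rfl
  have hR2 := E.hR
  unfold body
  refine Spec.set_seq (a := 50) (d := 0)
    (if min t (Nat.clog 2 (64 * r)) < Nat.clog 2 (64 * r) then 1 else 0) rfl (by decide)
    (by simp only [Expr.eval, Op.eval, h2, h4, c1]) (fun _ => by split_ifs <;> omega) ?_
  refine Spec.set_seq (2 ^ min (t + 1) (Nat.clog 2 (64 * r))) rfl (by decide)
    (by simp [Expr.eval, Op.eval, h4, ← (dbl t _).2]) (fun _ => (a1 _).trans (by omega)) ?_
  refine Spec.set_seq (min (t + 1) (Nat.clog 2 (64 * r))) rfl (by decide)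
    (by simp [Expr.eval, Op.eval, h5, ← (dbl t _).1])
    (fun _ => (a3 _).trans ((a1 _).trans (by omega))) ?_
  refine Spec.set_seq (if min t (Nat.log 2 m) < Nat.log 2 m then 1 else 0) rfl (by decide)
    (by simp only [Expr.eval, Op.eval, State.setReg_reg, h3, h6]; simp [c2])
    (fun _ => by split_ifs <;> omega) ?_
  refine Spec.set_seq (2 ^ min (t + 1) (Nat.log 2 m)) rfl (by decide)
    (by simp [Expr.eval, Op.eval, h6, ← (dbl t _).2]) (fun _ => (a2 _).trans (by omega)) ?_
  exact Spec.set (min (t + 1) (Nat.log 2 m)) rfl (by decide)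
    (by simp [Expr.eval, Op.eval, h7, ← (dbl t _).1])
    (fun _ => (a3 _).trans ((a2 _).trans (by omega))) fun _ => by simp

/-- The exponent of the accuracy. -/
def aa (m r : ℕ) : ℕ := min m (Nat.clog 2 (64 * r))

/-- The test: `0` if the accuracy is too small. -/
def zz (m r : ℕ) : ℕ := Nat.log 2 m / (2 ^ aa m r) ^ 1000

/-- The length of the padding. -/
def pp (m r : ℕ) : ℕ :=
  if zz m r = 0 then 0 else 2 ^ Nat.log 2 m - m % 2 ^ Nat.log 2 m + aa m r

theorem aa_le {m r : ℕ} (hr : 1 ≤ r) : 2 ^ aa m r ≤ 128 * r := by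
  have b1 := Nat.pow_pred_clog_lt_self (by norm_num : 1 < 2) (show 1 < 64 * r by omega)
  have b2 : 2 ^ aa m r ≤ 2 ^ ((Nat.clog 2 (64 * r)).pred + 1) :=
    Nat.pow_le_pow_right (by norm_num) (by rw [Nat.pred_eq_sub_one, aa]; omega)
  rw [pow_succ] at b2
  omega

theorem pp_le (m r : ℕ) : pp m r ≤ 2 * m := by
  unfold pp
  split_ifs with h
  · omega
  · have h0 : m ≠ 0 := by
      rintro rfl
      simp [zz] at h
    have h1 := Nat.pow_log_le_self 2 h0
    have h2 : aa m r ≤ m := min_le_left _ _
    omega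

/-- The second half of the computation. -/
def fin : Prog :=
  .seq (.set 5 (.op .mul (.op .lt (.lit 0) (.reg 7))
    (.op .add (.op .sub (.reg 6) (.op .mod (.reg 3) (.reg 6))) (.reg 5))))
  (.seq (.set 0 (.op .add (.reg 0) (.reg 5)))
  (.seq (.set 1 (.op .add (.reg 1) (.reg 5)))
  (.seq (.set 2 (.reg 7))
  (.seq (.set 3 (.lit 0)) (.seq (.set 4 (.lit 0)) (.seq (.set 5 (.lit 0)) (.seq (.set 6 (.lit 0))
    (.seq (.set 7 (.lit 0)) (.seq (.set 8 (.lit 0)) (.set 9 (.lit 0)))))))))))

/-- The computation of the test and of the padding. -/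
def calcP : Prog :=
  .seq (.set 2 (.op .mul (.lit 64) (.reg 2)))
  (.seq (.set 3 (emax (.reg 0) (.reg 1)))
  (.seq (.set 4 (.lit 1))
  (.seq (.set 6 (.lit 1))
  (.seq (.loop 9 (.reg 3) body)
  (.seq (.set 8 (.lit 1000))
  (.seq (.loop 9 (.reg 8) (.set 7 (.op .div (.reg 7) (.reg 4)))) fin))))))

theorem fin_spec {E : Env} {s : State} {lx ly r : ℕ} (hR : 3 * max lx ly ≤ E.R)
    (h0 : s.reg 0 = lx) (h1 : s.reg 1 = ly) (h3 : s.reg 3 = max lx ly)
    (h5 : s.reg 5 = aa (max lx ly) r) (h6 : s.reg 6 = 2 ^ Nat.log 2 (max lx ly))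
    (h7 : s.reg 7 = zz (max lx ly) r) :
    Spec E s fin 50 fun s' => s'.reg 0 = lx + pp (max lx ly) r ∧
      s'.reg 1 = ly + pp (max lx ly) r ∧ s'.reg 2 = zz (max lx ly) r ∧
      ∀ i, 3 ≤ i → i ≤ 9 → s'.reg i = 0 := by
  have a1 := pp_le (max lx ly) r
  unfold fin
  refine Spec.set_seq (a := 50) (d := 0) (pp (max lx ly) r) rfl (by decide) ?_
    (fun _ => by omega) ?_
  · simp only [Expr.eval, Op.eval, h3, h5, h6, h7, pp]
    by_cases h : zz (max lx ly) r = 0
    · simp [h]
    · rw [if_neg h, if_pos (Nat.pos_of_ne_zero h), one_mul]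
  refine Spec.set_seq (lx + pp (max lx ly) r) rfl (by decide)
    (by simp [Expr.eval, Op.eval, h0]) (fun _ => by omega) ?_
  refine Spec.set_seq (ly + pp (max lx ly) r) rfl (by decide)
    (by simp [Expr.eval, Op.eval, h1]) (fun _ => by omega) ?_
  refine Spec.set_seq (zz (max lx ly) r) rfl (by decide) (by simp [Expr.eval, h7])
    (fun hb => by have := hb.reg 7; simpa [h7] using this) ?_
  iterate 6 refine Spec.set_seq 0 rfl (by decide) rfl (fun _ => Nat.zero_le _) ?_
  refine Spec.set 0 rfl (by decide) rfl (fun _ => Nat.zero_le _) fun _ =>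
    ⟨by simp, by simp, by simp, fun i h3 h9 => ?_⟩
  interval_cases i <;> simp

theorem calc_spec {E : Env} {x y : List ℕ} {r : ℕ} (hr : 1 ≤ r)
    (hR : 128 * r + 3 * max x.length y.length + 1000 ≤ E.R) :
    Spec E ((State.init x y).setReg 2 r) calcP (100 + (52 * max x.length y.length + 6000))
      fun s' => s'.reg 0 = x.length + pp (max x.length y.length) r ∧
        s'.reg 1 = y.length + pp (max x.length y.length) r ∧
        s'.reg 2 = zz (max x.length y.length) r ∧ ∀ i, 3 ≤ i → i ≤ 9 → s'.reg i = 0 := by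
  have hS := E.hS
  unfold calcP
  refine Spec.set_seq' (64 * r) ⟨show 64 ≤ E.R by omega, trivial⟩
    (by simp only [Expr.cost]; omega) (by decide) (by simp [Expr.eval, Op.eval])
    (fun _ => by omega) ?_
  refine Spec.set_seq (max x.length y.length) rfl (by decide)
    (by simp [Expr.eval, State.init]) (fun _ => by omega) ?_
  refine Spec.set_seq 1 rfl (by decide) rfl (fun _ => by omega) ?_
  refine Spec.set_seq 1 rfl (by decide) rfl (fun _ => by omega) ?_
  refine Spec.seq 2 (52 * max x.length y.length) 60 6000 _ (by decide) le_rfl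
    (Spec.loop (max x.length y.length) 50 (fun t s' =>
      s'.reg 4 = 2 ^ min t (Nat.clog 2 (64 * r)) ∧ s'.reg 5 = min t (Nat.clog 2 (64 * r)) ∧
      s'.reg 6 = 2 ^ min t (Nat.log 2 (max x.length y.length)) ∧
      s'.reg 7 = min t (Nat.log 2 (max x.length y.length))) rfl (by decide) (by omega)
      (by simp [Expr.eval]) (fun _ => by omega) (fun _ => by simp [State.init]) ?_) ?_
  · rintro t ht s' - hf ⟨i4, i5, i6, i7⟩
    have f2 := hf.reg 2 (by decide)
    have f3 := hf.reg 3 (by decide)
    exact body_spec (by omega) hr (by omega) (by simpa using f2) (by simpa using f3)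
      (by simpa using i4) (by simpa using i5) (by simpa using i6) (by simpa using i7)
  rintro s1 hf ⟨i4, i5, i6, i7⟩
  have f0 := hf.reg 0 (by decide)
  have f1 := hf.reg 1 (by decide)
  have f3 := hf.reg 3 (by decide)
  rw [min_eq_right (Nat.log_le_self _ _)] at i6 i7
  refine Spec.set_seq' 1000 (show 1000 ≤ E.R by omega) (by simp only [Expr.cost]; omega)
    (by decide) rfl (fun _ => by omega) ?_
  refine Spec.seq 2 6000 50 0 _ (by decide) le_rfl
    (Spec.loop 1000 4 (fun t s' => s'.reg 7 = Nat.log 2 (max x.length y.length) /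
      (2 ^ aa (max x.length y.length) r) ^ t) rfl (by decide) (by omega)
      (by simp [Expr.eval]) (fun _ => by omega) (fun _ => by simp [i7]) ?_) ?_
  · intro t _ s' _ hf' j7
    have g4 := hf'.reg 4 (by decide)
    refine Spec.set (a := 4) (d := 0) _ rfl (by decide) rfl (fun hb => ?_) fun _ => ?_
    · exact (Nat.div_le_self _ _).trans (hb.reg 7)
    · simp only [State.setReg_reg, Expr.eval, Op.eval] at g4 ⊢
      simp only [if_true, show ¬ (7 = 9) by decide, show ¬ (4 = 9) by decide,
        show ¬ (4 = 8) by decide, if_false] at g4 ⊢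
      rw [j7, g4, i4, Nat.div_div_eq_div_mul, pow_succ]
      rfl
  intro s2 hf' j7
  have g0 := hf'.reg 0 (by decide)
  have g1 := hf'.reg 1 (by decide)
  have g3 := hf'.reg 3 (by decide)
  have g5 := hf'.reg 5 (by decide)
  have g6 := hf'.reg 6 (by decide)
  exact fin_spec (by omega) (by simpa [f0, State.init] using g0)
    (by simpa [f1, State.init] using g1) (by simpa [f3] using g3) (by simpa [i5, aa] using g5)
    (by simpa [i6] using g6) j7

/-- The exact computation in quadratic time. -/
def exactP : Prog := .seq (.set 14 (.op .add (.reg 0) (.reg 1))) (H992.band 2)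

theorem exact_solves : Top.Solves exactP (fun x y D => D = ED x y)
    (fun n => ((360 * ((n + 1) * (2 * n + 1)) + 4 : ℕ) : ℝ)) 201 := by
  refine H873.solves_of_spec_ge (c0 := 2) (S := 100) (by norm_num) le_rfl
    (fun x y => 360 * ((max x.length y.length + 1) * (2 * max x.length y.length + 1)) + 4)
    (fun _ _ => 0) (fun x y _ => ED x y) (fun x y E hR _ => ?_) (fun _ _ => le_rfl)
    (fun x y b T _ _ => ?_)
  · have h1 : 2 * max x.length y.length + 2 ≤ E.R := by rw [hR]; nlinarith
    have h2 : ED x y ≤ x.length + y.length := by rw [ED_eq_lev]; exact lev_le_length x y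
    unfold exactP
    refine (Spec.set_seq (a := 4)
      (d := 360 * ((max x.length y.length + 1) * (2 * max x.length y.length + 1)))
      (x.length + y.length) rfl (by decide) (by simp [Expr.eval, Op.eval, State.init])
      (fun _ => by omega) ?_).le (by omega)
    refine (H992.band_spec' (x := x) (y := y) (k := x.length + y.length)
      (n := max x.length y.length) (by simp [State.init]) (by simp [State.init])
      (by simp [State.init]) (by simp [State.init]) (by simp) (by omega) (by omega)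
      (le_max_left _ _) (le_max_right _ _)).mono ?_ fun s' h => ⟨Nat.zero_le _, by omega⟩
    exact (Nat.mul_le_mul_left _ (Nat.mul_le_mul_left _ (by omega))).trans (Nat.le_add_left _ _)
  · rw [Nat.card_congr (Equiv.subtypeUnivEquiv fun _ => rfl)]
    omega

/-- Read the accuracy; pad the strings and run `Q`, or compute the distance exactly. -/
def wrap (Q : Prog) : Prog :=
  .seq rd (.seq calcP (.ite (.reg 2) (.seq (.set 2 (.lit 0)) Q) (.seq (.set 2 (.lit 0)) exactP)))

theorem wrap_exec (Q : Prog) {N : ℕ} {ρ : ℕ → ℕ} (hρ : ∀ i, ρ i < N) {x y : List ℕ} {r m : ℕ}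
    (hm : m = max x.length y.length) (hr : 1 ≤ r) (hN : (128 * r + 3 * m + 1000) ^ 100 < N)
    (hs : ∀ a ∈ x ++ y, a < N) {t : ℕ} {s' : State}
    (h : Exec N ρ (if zz m r = 0 then exactP else Q) (State.init
      (x ++ List.replicate (pp m r) 0) (y ++ List.replicate (pp m r) 0)) t s') :
    ∃ t', Exec N ρ (wrap Q) (State.init x (y ++ [r])) t' s' ∧ t' ≤ t + 52 * m + 6114 := by
  subst hm
  let E : Env := ⟨ρ, 128 * r + 3 * max x.length y.length + 1000, 100, N, by omega, le_rfl, hN, hρ⟩
  have hRN : 128 * r + 3 * max x.length y.length + 1000 < N := E.R_lt_N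
  have hb : Bdd E ((State.init x y).setReg 2 r) :=
    (H873.bdd_init (E := E) (show _ ≤ _ + _ by omega) (show _ ≤ _ + _ by omega) hs).setReg 2
      (show _ ≤ _ + _ by omega)
  obtain ⟨⟨hc, hf, h0, h1, h2, h3⟩, hb', ht, htop⟩ :=
    ((calc_spec (E := E) hr le_rfl).withFrame.withCoins rfl) hb
  have e1 := rd_exec (N := N) ρ (x := x) (y := y) (r := r) (by omega) (by omega)
  have e2 := exec_of_top (N := N) (ρ := ρ) (by omega) calcP _ htop
  change Exec N ρ calcP _ (calcP.time E.ρ _) (calcP.run E.ρ _) at e2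
  generalize calcP.run E.ρ ((State.init x y).setReg 2 r) = s at *
  have e : s.setReg 2 0 = State.init (x ++ List.replicate (pp (max x.length y.length) r) 0)
      (y ++ List.replicate (pp (max x.length y.length) r) 0) := by
    have c1 : s.arr = (State.init x y).arr := funext fun j => hf.arr j (by simp [calcP, body, fin, Prog.wa])
    have c2 : s.coins = 0 := hc
    unfold State.setReg State.init
    rw [c1, c2]
    congr 1
    · funext i
      by_cases i2 : i = 2
      · simp [i2]
      rw [Function.update_of_ne i2]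
      by_cases i0 : i = 0
      · simp [i0, h0]
      by_cases i1 : i = 1
      · simp [i1, h1]
      rw [if_neg i0, if_neg i1]
      by_cases i9 : i ≤ 9
      · exact h3 i (by omega) i9
      · rw [hf.reg i (by simp [calcP, body, fin, Prog.wr]; omega)]
        simp [State.init, i0, i1, i2]
    · funext j i
      simp only [State.init, getD_pad]
  have e3 := Exec.set (N := N) (ρ := ρ) 2 _ s _ _ (Eval.lit 0 (by omega))
  rw [e] at e3
  have v2 : Eval N s (.reg 2) (s.reg 2) 1 := Eval.reg 2 ((hb'.reg 2).trans_lt hRN)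
  by_cases hz : zz (max x.length y.length) r = 0
  · rw [if_pos hz] at h
    rw [h2, hz] at v2
    exact ⟨_, .seq _ _ _ _ _ _ _ e1 (.seq _ _ _ _ _ _ _ e2
      (.iteFalse _ _ _ _ _ _ _ v2 (.seq _ _ _ _ _ _ _ e3 h))), by omega⟩
  · rw [if_neg hz] at h
    exact ⟨_, .seq _ _ _ _ _ _ _ e1 (.seq _ _ _ _ _ _ _ e2
      (.iteTrue _ _ _ _ _ _ _ _ v2 (h2 ▸ hz) (.seq _ _ _ _ _ _ _ e3 h))), by omega⟩

end Vale.Agent.N315
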