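import Vale.Agent.N315.Num

/-! N315: the running time in terms of real logarithms. -/

set_option autoImplicit false

namespace Vale.Agent.N315

open Real

/-- The excess in the exponent. -/
noncomputable def rho (r N : ℝ) : ℝ := log (r * log (log N)) / log (log N)

theorem log_ge {N : ℝ} (hN : 16 ≤ N) : 2.7725 ≤ log N := by
  have h1 : log 16 ≤ log N := log_le_log (by norm_num) hN
  have h2 : log 16 = 4 * log 2 := by
    rw [show (16 : ℝ) = 2 ^ 4 by norm_num, log_pow]; norm_num
  have := log_two_gt_d9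
  linarith

theorem ll_ge {N : ℝ} (hN : 16 ≤ N) : 1.01 ≤ log (log N) := by
  have h1 := log_ge hN
  rw [le_log_iff_exp_le (by linarith)]
  have h2 : exp 1.01 * exp (-0.01) = exp 1 := by rw [← exp_add]; norm_num
  have h3 : (0.99 : ℝ) ≤ exp (-0.01) := by have := add_one_le_exp (-0.01 : ℝ); linarith
  have h4 := exp_one_lt_d9
  have h5 := exp_pos 1.01
  nlinarith

theorem lll_ge {N : ℝ} (hN : 16 ≤ N) : 1 / 200 ≤ log (log (log N)) := by
  have h1 := ll_ge hN
  have h2 : log 1.01 ≤ log (log (log N)) := log_le_log (by norm_num) h1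
  have h3 := one_sub_inv_le_log_of_pos (show (0 : ℝ) < 1.01 by norm_num)
  have h4 : (1 : ℝ) / 200 ≤ 1 - (1.01 : ℝ)⁻¹ := by norm_num
  linarith

theorem rho_eq {r N : ℝ} (hr : 1 ≤ r) (hN : 16 ≤ N) :
    rho r N = (log r + log (log (log N))) / log (log N) := by
  have := ll_ge hN
  rw [rho, log_mul (by linarith) (by linarith)]

theorem rho_nonneg {r N : ℝ} (hr : 1 ≤ r) (hN : 16 ≤ N) : 0 ≤ rho r N := by
  have := ll_ge hN
  have := lll_ge hN
  have := log_nonneg hr
  rw [rho_eq hr hN]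
  positivity

/-- `x / log x` is increasing. -/
theorem div_log_mono {x y : ℝ} (hx : 2.7725 ≤ x) (h : x ≤ y) : x / log x ≤ y / log y := by
  have h1 : exp 1 ≤ x := by have := exp_one_lt_d9; linarith
  have h2 := log_div_self_antitoneOn (show x ∈ {x : ℝ | exp 1 ≤ x} from h1)
    (show y ∈ {x : ℝ | exp 1 ≤ x} from h1.trans h) h
  have h3 : 0 < log x := log_pos (by linarith)
  have h4 : 0 < log y := log_pos (by linarith)
  simp only at h2
  rw [div_le_div_iff₀ (by linarith) (by linarith)] at h2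
  rw [div_le_div_iff₀ h3 h4]
  linarith

theorem pow_log {a : ℕ} {x : ℝ} (h : (2 : ℝ) ^ a ≤ x) : (a : ℝ) * 0.693 ≤ log x := by
  have h1 := log_le_log (by positivity) h
  rw [log_pow] at h1
  have h2 := log_two_gt_d9
  have h3 : (0 : ℝ) ≤ a := Nat.cast_nonneg a
  nlinarith

theorem log_pow' {a : ℕ} {x : ℝ} (hx : 0 < x) (h : x ≤ (2 : ℝ) ^ a) : log x ≤ a := by
  have h1 := log_le_log hx h
  rw [log_pow] at h1
  have h2 := log_two_lt_d9
  have h3 : (0 : ℝ) ≤ a := Nat.cast_nonneg a
  nlinarith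

theorem log_mul_le {c x : ℝ} {j : ℕ} (hc : 0 < c) (hj : c ≤ 2 ^ j) (hx : 0 < x) :
    log (c * x) ≤ j + log x := by
  rw [log_mul hc.ne' hx.ne']
  have := log_pow' hc hj
  linarith

/-- The time of the main program. -/
theorem tim_big {m u L G v s K : ℕ} {r N : ℝ} (b : Bg m u L G) (hv : v ≤ u + s)
    (hs : (2 : ℝ) ^ s ≤ 128 * r) (hr : 1 ≤ r) (hN : 16 ≤ N) (hm : (m : ℝ) + 1 ≤ 3 * N) :
    (2 : ℝ) ^ (G + K * v * G / L) ≤ 6 * N ^ (1 + 12 * K * rho r N) := by
  have l1 := log_ge hN
  have l2 := ll_ge hN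
  have l0 := log_nonneg hr
  have hG0 : 3 ≤ G := by
    have := b.u0; have := b.uL; have := b.LW; have := b.WZ; have := b.ZY; have := b.YX
    have := b.YG
    omega
  have hL0 : 1 ≤ L := by have := b.u0; have := b.uL; omega
  have hG0' : (3 : ℝ) ≤ G := by exact_mod_cast hG0
  have hL0' : (1 : ℝ) ≤ L := by exact_mod_cast hL0
  have hu0 : (1000 : ℝ) ≤ u := by exact_mod_cast b.u0
  have g1 : (2 : ℝ) ^ G ≤ 6 * N := by
    have : (2 : ℝ) ^ G ≤ 2 * ((m : ℝ) + 1) := by exact_mod_cast b.Gn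
    linarith
  have g2 : (G : ℝ) ≤ 4 * log N := by
    have h1 := pow_log g1
    have h2 := log_mul_le (c := 6) (x := N) (j := 3) (by norm_num) (by norm_num) (by linarith)
    push_cast at h2
    linarith
  have g3 : (L : ℝ) ≤ 6 * log (log N) := by
    have h0 : (2 : ℝ) ^ L ≤ 2 * G := by exact_mod_cast b.XG
    have h1 := pow_log (show (2 : ℝ) ^ L ≤ 8 * log N by linarith)
    have h2 := log_mul_le (c := 8) (x := log N) (j := 3) (by norm_num) (by norm_num) (by linarith)
    push_cast at h2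
    linarith
  have g4 : (u : ℝ) * 0.693 ≤ 4 + log (log (log N)) := by
    have h0 : (2 : ℝ) ^ u ≤ 2 * L := by exact_mod_cast b.WL
    have h1 := pow_log (show (2 : ℝ) ^ u ≤ 12 * log (log N) by linarith)
    have h2 := log_mul_le (c := 12) (x := log (log N)) (j := 4) (by norm_num) (by norm_num)
      (by linarith)
    push_cast at h2
    linarith
  have g5 : (v : ℝ) ≤ 3 * (log r + log (log (log N))) := by
    have h1 := pow_log hs
    have h2 := log_mul_le (c := 128) (x := r) (j := 7) (by norm_num) (by norm_num) (by linarith)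
    have h3 : (v : ℝ) ≤ u + s := by exact_mod_cast hv
    push_cast at h2
    linarith
  have g6 : (G : ℝ) / L ≤ 4 * log N / log (log N) := by
    have h0 : (G : ℝ) ≤ 2 ^ L := by exact_mod_cast b.GX
    have h1 := log_pow' (by linarith) h0
    have h2 : 0 < log (G : ℝ) := log_pos (by linarith)
    have h3 : log (log N) ≤ log (4 * log N) := log_le_log (by linarith) (by linarith)
    calc (G : ℝ) / L ≤ G / log G := div_le_div_of_nonneg_left (by linarith) h2 h1
      _ ≤ 4 * log N / log (4 * log N) := div_log_mono (by linarith) g2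
      _ ≤ _ := div_le_div_of_nonneg_left (by linarith) (by linarith) h3
  have g7 : ((K * v * G / L : ℕ) : ℝ) ≤ log N * (12 * K * rho r N) := by
    refine Nat.cast_div_le.trans ?_
    rw [rho_eq hr hN]
    push_cast
    have h1 : (v : ℝ) * (G / L) ≤ 3 * (log r + log (log (log N))) * (4 * log N / log (log N)) :=
      mul_le_mul g5 g6 (by positivity) ((Nat.cast_nonneg v).trans g5)
    calc (K : ℝ) * v * G / L = K * (v * (G / L)) := by ring
      _ ≤ K * (3 * (log r + log (log (log N))) * (4 * log N / log (log N))) :=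
          mul_le_mul_of_nonneg_left h1 (Nat.cast_nonneg K)
      _ = _ := by ring
  have g8 : (2 : ℝ) ^ (K * v * G / L) ≤ N ^ (12 * K * rho r N) := by
    rw [rpow_def_of_pos (by linarith)]
    refine le_trans ?_ (exp_le_exp.2 g7)
    rw [← mul_one ((K * v * G / L : ℕ) : ℝ), exp_nat_mul]
    exact pow_le_pow_left₀ (by norm_num) (by have := exp_one_gt_d9; linarith) _
  rw [pow_add, rpow_add (by linarith), rpow_one, ← mul_assoc]
  exact mul_le_mul g1 g8 (by positivity) (by linarith)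

/-- If the accuracy is very small then quadratic time is allowed. -/
theorem exact_le {m g : ℕ} {r N : ℝ} (hm : m < 2 ^ (g + 1)) (hg : (g : ℝ) ≤ (128 * r) ^ 1000)
    (hr : 1 ≤ r) (hN : (m : ℝ) + 16 ≤ N) : (m : ℝ) + 16 ≤ N ^ (2000000 * rho r N) := by
  have m0 : (0 : ℝ) ≤ m := Nat.cast_nonneg m
  have hM : (16 : ℝ) ≤ m + 16 := by linarith
  have hN' : 16 ≤ N := hM.trans hN
  have l0 := log_nonneg hr
  have l1 := log_ge hM
  have l2 := ll_ge hM
  have l3 := lll_ge hN'
  have l4 := ll_ge hN'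
  have a1 : log ((m : ℝ) + 16) ≤ (g + 5 : ℕ) := by
    refine log_pow' (by linarith) ?_
    have : m + 16 ≤ 2 ^ (g + 5) := by
      have := Nat.two_pow_pos g
      rw [pow_add] at hm ⊢
      omega
    exact_mod_cast this
  have a2 : log ((m : ℝ) + 16) ≤ (128 * r) ^ 1001 := by
    have h1 : (1 : ℝ) ≤ (128 * r) ^ 1000 := one_le_pow₀ (by linarith)
    push_cast at a1
    rw [pow_succ]
    generalize (128 * r) ^ 1000 = z at *
    nlinarith
  have a3 : log (log ((m : ℝ) + 16)) ≤ 2000000 * (log r + log (log (log N))) := by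
    have h1 := log_le_log (by linarith) a2
    have h2 := log_mul_le (c := 128) (x := r) (j := 7) (by norm_num) (by norm_num) (by linarith)
    rw [log_pow] at h1
    push_cast at h1 h2
    linarith
  have a4 := div_log_mono l1 (log_le_log (by linarith) hN)
  rw [rpow_def_of_pos (by linarith), ← log_le_iff_le_exp (by linarith), rho_eq hr hN']
  rw [div_le_iff₀ (by linarith)] at a4
  have a5 : 0 ≤ log N / log (log N) := by have := log_ge hN'; positivity
  calc log ((m : ℝ) + 16) ≤ log N / log (log N) * log (log ((m : ℝ) + 16)) := a4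
    _ ≤ log N / log (log N) * (2000000 * (log r + log (log (log N)))) :=
        mul_le_mul_of_nonneg_left a3 a5
    _ = _ := by ring

/-- The form of the time bound. -/
noncomputable def bd (C r N : ℝ) : ℝ := C * N ^ (1 + C * rho r N)

theorem bd_ge {C D r N : ℝ} (hr : 1 ≤ r) (hN : 16 ≤ N) (hD : D ≤ C) (h0 : 0 ≤ C) :
    C * N ^ (1 + D * rho r N) ≤ bd C r N := by
  refine mul_le_mul_of_nonneg_left (rpow_le_rpow_of_exponent_le (by linarith) ?_) h0
  have := mul_le_mul_of_nonneg_right hD (rho_nonneg hr hN)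
  linarith

theorem self_le {D r N : ℝ} (hr : 1 ≤ r) (hN : 16 ≤ N) (hD : 0 ≤ D) :
    N ≤ N ^ (1 + D * rho r N) := by
  refine self_le_rpow_of_one_le (by linarith) ?_
  have := mul_nonneg hD (rho_nonneg hr hN)
  linarith

open Filter in
/-- For accuracy `1 / r` with `r ≤ (log N) ^ c`, `c` small, the exponent is close to `1`. -/
theorem bd_small {C δ : ℝ} (hC : 0 ≤ C) (hδ : 0 < δ) : ∃ c C' : ℝ, 0 < c ∧ ∀ (n : ℕ) (r : ℝ),
    1 ≤ r → r ≤ log ((n : ℝ) + 16) ^ c → bd C r (n + 16) ≤ C' * ((n : ℝ) + 1) ^ (1 + δ) := by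
  have hc : 0 < δ / (2 * (C + 1)) := by positivity
  have key : ∀ (n : ℕ) (r : ℝ), 1 ≤ r → r ≤ log ((n : ℝ) + 16) ^ (δ / (2 * (C + 1))) →
      rho r (n + 16) ≤ δ / (2 * (C + 1)) + rho 1 (n + 16) := by
    intro n r hr h
    have hN : (16 : ℝ) ≤ n + 16 := by have : (0 : ℝ) ≤ n := Nat.cast_nonneg n; linarith
    have l1 := log_ge hN
    have l2 := ll_ge hN
    have h1 := log_le_log (by linarith) h
    rw [log_rpow (by linarith)] at h1
    rw [rho_eq hr hN, rho_eq le_rfl hN, log_one, zero_add, add_div]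
    refine add_le_add_left ?_ _
    rwa [div_le_iff₀ (by linarith)]
  have t0 : Tendsto (fun n : ℕ => log (log ((n : ℝ) + 16))) atTop atTop :=
    tendsto_log_atTop.comp (tendsto_log_atTop.comp
      (tendsto_atTop_add_const_right _ _ tendsto_natCast_atTop_atTop))
  have t1 := (isLittleO_log_id_atTop.tendsto_div_nhds_zero.comp t0).eventually_le_const hc
  obtain ⟨n0, hn0⟩ := eventually_atTop.1 t1
  refine ⟨_, C * 16 ^ (1 + δ) * (1 + (n0 + 16) ^ C), hc, fun n r hr h => ?_⟩
  have n0' : (0 : ℝ) ≤ n := Nat.cast_nonneg n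
  have hN : (16 : ℝ) ≤ n + 16 := by linarith
  have l2 := ll_ge hN
  have a1 := key n r hr h
  have a2 : C * (δ / (2 * (C + 1))) ≤ δ / 2 := by
    rw [← mul_div_assoc, div_le_div_iff₀ (by positivity) (by norm_num)]
    nlinarith
  have a3 : ((n : ℝ) + 16) ^ (1 + δ) ≤ 16 ^ (1 + δ) * ((n : ℝ) + 1) ^ (1 + δ) := by
    rw [← mul_rpow (by norm_num) (by linarith)]
    exact rpow_le_rpow (by linarith) (by linarith) (by linarith)
  have a4 : ((n : ℝ) + 16) ^ (1 + C * rho r (n + 16)) ≤
      ((n : ℝ) + 16) ^ (1 + δ) * (1 + ((n0 : ℝ) + 16) ^ C) := by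
    have p1 : (0 : ℝ) ≤ ((n0 : ℝ) + 16) ^ C := by positivity
    have p2 : (0 : ℝ) ≤ ((n : ℝ) + 16) ^ (1 + δ) := by positivity
    rcases le_or_gt n0 n with hn | hn
    · have b1 : rho 1 (n + 16) ≤ δ / (2 * (C + 1)) := by
        rw [rho, one_mul]
        exact hn0 n hn
      have b2 : C * rho r (n + 16) ≤ C * (δ / (2 * (C + 1)) + δ / (2 * (C + 1))) :=
        mul_le_mul_of_nonneg_left (by linarith) hC
      refine (rpow_le_rpow_of_exponent_le (by linarith) (show _ ≤ 1 + δ by linarith)).trans ?_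
      nlinarith
    · have b1 : rho 1 (n + 16) ≤ 1 := by
        rw [rho, one_mul, div_le_one (by linarith)]
        exact (log_le_sub_one_of_pos (by linarith)).trans (by linarith)
      have b2 : C * rho r (n + 16) ≤ C * (δ / (2 * (C + 1)) + 1) :=
        mul_le_mul_of_nonneg_left (by linarith) hC
      have b3 : ((n : ℝ) + 16) ^ C ≤ ((n0 : ℝ) + 16) ^ C :=
        rpow_le_rpow (by linarith) (by have : (n : ℝ) ≤ n0 := Nat.cast_le.2 hn.le; linarith) hC
      refine (rpow_le_rpow_of_exponent_le (by linarith)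
        (show _ ≤ 1 + δ + C by linarith)).trans ?_
      rw [rpow_add (by linarith)]
      exact mul_le_mul_of_nonneg_left (by linarith) p2
  calc bd C r (n + 16) ≤ C * (((n : ℝ) + 16) ^ (1 + δ) * (1 + ((n0 : ℝ) + 16) ^ C)) :=
        mul_le_mul_of_nonneg_left a4 hC
    _ ≤ C * (16 ^ (1 + δ) * ((n : ℝ) + 1) ^ (1 + δ) * (1 + ((n0 : ℝ) + 16) ^ C)) :=
        mul_le_mul_of_nonneg_left (mul_le_mul_of_nonneg_right a3 (by positivity)) hC
    _ = _ := by ring

end Vale.Agent.N315
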