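import Vale.Agent.N315.Solve
import Vale.Agent.N315.Rate
import Vale.Agent.N315.Prep
import Vale.Agent.N315.Flat

/-! N315: the upper bounds on the word RAM. -/

set_option autoImplicit false

namespace Vale.Agent.N315

open Vale.Agent.P315 Vale.Agent.P315R45
open Vale.Agent.P315Z (lg1 lg2 lg3 num_pow_le num_le_of_pow)
open Vale.Agent.Lib.PolyTime (PT)

theorem vv_le (a : ℕ → ℕ) (n : ℕ) : vv a n ≤ lg3 n + a n := by
  unfold vv
  omega

theorem tim_le {a : ℕ → ℕ} {n0 K m s : ℕ} {r N : ℝ}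
    (hb : n0 ≤ m → Bg m (lg3 m) (lg2 m) (lg1 m) ∧ a m ≤ s) (hs : (2 : ℝ) ^ s ≤ 128 * r)
    (hr : 1 ≤ r) (hN : 16 ≤ N) (hm : (m : ℝ) + 1 ≤ 3 * N) :
    (tim a n0 K m : ℝ) ≤ (K + 3024) * N ^ (1 + 12 * K * rho r N) := by
  have h1 := self_le (D := 12 * K) hr hN (by positivity)
  have h2 : (K : ℝ) * 1 ≤ K * N ^ (1 + 12 * K * rho r N) :=
    mul_le_mul_of_nonneg_left (by linarith) (Nat.cast_nonneg K)
  unfold tim
  split_ifs with h
  · linarith
  · obtain ⟨b, ha⟩ := hb (not_lt.1 h)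
    have h3 := tim_big (K := K) b ((vv_le a m).trans (Nat.add_le_add_left ha _)) hs hr hN hm
    rw [Nat.cast_add, Nat.cast_add, Nat.cast_mul, Nat.cast_mul, Nat.cast_pow]
    push_cast
    linarith

theorem cast16 (n : ℕ) : (16 : ℝ) ≤ (n : ℝ) + 16 := by
  have : (0 : ℝ) ≤ n := Nat.cast_nonneg n
  linarith

/-- A fixed accuracy. -/
theorem upper_rate {ε : ℝ} (hε : 0 < ε) : ∃ (k : ℕ) (P : List Instr) (C : ℝ), 0 ≤ C ∧
    ∀ (n σ w T : ℕ) (x y : List ℕ), x.length ≤ n → y.length ≤ n → 0 < σ →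
      (∀ a ∈ x ++ y, a < σ) → σ * (n + 2) ^ k ≤ 2 ^ w → bd C 1 (n + 16) ≤ T →
      Approx (1 + ε) P w T x y := by
  obtain ⟨c0, hc0⟩ := exists_nat_ge (64 / ε)
  obtain ⟨k, n0, K, Q, hb, hQ⟩ := solves (a := fun _ => 0) (PT.const 0) c0
  obtain ⟨c, hc, hm⟩ : ∃ c, 2 ≤ c ∧ mxP Q + 1 ≤ 2 ^ c :=
    ⟨mxP Q + 2, by omega, le_trans (by omega) Nat.lt_two_pow_self.le⟩
  refine ⟨k + 2 + c, full c Q, 12 * K + 13000, by positivity,
    fun n σ w T x y hx hy hσ hs hw hT => ?_⟩
  obtain ⟨b, rfl, h3, h4⟩ := split_w hσ (by omega) hw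
  have h5 : (n + 2) ^ 2 ≤ 2 ^ b := (Nat.pow_le_pow_right (by omega) (by omega)).trans h3
  have hN : x.length + y.length + 2 < 2 ^ b := by nlinarith
  have hb1 : 1 ≤ b := by
    rcases b with _ | b
    · simp at hN
    · omega
  have hs' : ∀ a ∈ x ++ y, a < 2 ^ b := fun a ha => (hs a ha).trans_le h4
  have hn : max x.length y.length ≤ n := max_le hx hy
  obtain ⟨H1, H2⟩ := hQ x y _ b rfl ((Nat.pow_le_pow_left (by omega) _).trans
    ((Nat.pow_le_pow_right (by omega) (show k ≤ k + 2 by omega)).trans h3)) hs'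
  have hN16 := cast16 n
  have hn' : ((max x.length y.length : ℕ) : ℝ) ≤ n := Nat.cast_le.2 hn
  have t1 := tim_le (a := fun _ => 0) (n0 := n0) (K := K) (m := max x.length y.length) (s := 0)
    (fun h => ⟨(hb _ h).1, le_rfl⟩) (by norm_num) le_rfl hN16 (by linarith)
  have t2 := bd_ge (C := 12 * K + 13000) (D := 12 * K) le_rfl hN16 (by linarith) (by positivity)
  have t3 := self_le (D := 12 * K) le_rfl hN16 (by positivity)
  have t4 : (0 : ℝ) ≤ K * ((n : ℝ) + 16) ^ (1 + 12 * K * rho 1 (n + 16)) := by positivity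
  have hacc : acc (fun _ => 0) n0 (max x.length y.length) ≤ ε := by
    unfold acc
    split_ifs with h
    · exact hε.le
    · obtain ⟨b1, b2⟩ := hb _ (not_lt.1 h)
      have b3 := (vv_range (fun _ => 0) b1).1
      have b4 : vv (fun _ => 0) (max x.length y.length) <
        2 ^ vv (fun _ => 0) (max x.length y.length) := Nat.lt_two_pow_self
      have b5 : (c0 : ℝ) ≤ 2 ^ vv (fun _ => 0) (max x.length y.length) := by
        exact_mod_cast (b2.trans b3).trans b4.le
      rw [div_le_iff₀' hε] at hc0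
      rw [div_le_iff₀ (by positivity)]
      exact hc0.trans (mul_le_mul_of_nonneg_left b5 hε.le)
  refine flat (fun D => ED x y ≤ D ∧ (D : ℝ) ≤ (1 + ε) * ED x y)
    (A := 32 * (x.length + y.length) + 127) (Q := Q) (s0 := State.init x y)
    (fun ρ t s h => ?_) (fun ρ hρ => ?_)
    ((H2 T (by linarith)).trans (Nat.mul_le_mul_left _ ?_))
  · rw [← Nat.add_assoc]
    exact full_run hb1 hc hm ρ hN hs' h
  · obtain ⟨m, s, he, hm'⟩ := H1 ρ hρ
    refine ⟨m, s, he, ?_⟩
    have hx' : (x.length : ℝ) ≤ n := Nat.cast_le.2 hx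
    have hy' : (y.length : ℝ) ≤ n := Nat.cast_le.2 hy
    have : ((4 * m + (32 * (x.length + y.length) + 127) : ℕ) : ℝ) ≤ T := by
      push_cast
      linarith
    exact_mod_cast this
  · refine Nat.card_le_card_of_injective (Subtype.map id fun ρ hρ => ?_)
      (Subtype.map_injective _ Function.injective_id)
    obtain ⟨m, s, he, g1, g2⟩ := hρ
    exact ⟨m, s, he, g1, g2.trans (mul_le_mul_of_nonneg_right (by linarith) (Nat.cast_nonneg _))⟩

/-- The accuracy stored in the length. -/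
def code (n : ℕ) : ℕ := n % 2 ^ lg2 n

theorem pt_code : PT ∅ code :=
  PT.mod PT.id (PT.pow (PT.const 2) (P315Z.Pt0.PT_lg2 PT.id) (P315Z.Pt0.PBd_lg2 PT.id))

theorem pad_facts {m r n : ℕ} (hz : zz m r ≠ 0) (hn : n = m + pp m r)
    (b : Bg n (lg3 n) (lg2 n) (lg1 n)) : code n = aa m r ∧ 64 * r ≤ 2 ^ vv code n := by
  have := b.u0; have := b.uL; have := b.LW; have := b.WZ; have := b.ZY; have := b.YX
  have := b.YG; have := b.nG; have := b.Gn
  have h1 := pp_le m r
  have h2 : (2 ^ aa m r) ^ 1000 ≤ Nat.log 2 m := by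
    by_contra h
    exact hz (Nat.div_eq_of_lt (not_le.1 h))
  have h0 : m ≠ 0 := by
    rintro rfl
    simp [zz] at hz
  have h3 := Nat.pow_log_le_self 2 h0
  have h4 := Nat.lt_pow_succ_log_self (by norm_num : 1 < 2) m
  have h5 : Nat.log 2 m ≤ lg1 n := num_le_of_pow (by omega)
  have h6 : lg1 n ≤ Nat.log 2 m + 4 := num_le_of_pow (by
    rw [Nat.succ_eq_add_one, pow_add] at h4
    rw [pow_add]
    omega)
  have h7 : aa m r * 1000 ≤ lg2 n := num_le_of_pow (by
    rw [pow_mul]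
    exact h2.trans (h5.trans b.GX))
  have h8 : code n = aa m r := by
    obtain ⟨d, hd⟩ : 2 ^ lg2 n ∣ 2 ^ Nat.log 2 m := pow_dvd_pow 2 (by omega)
    have e1 := Nat.div_add_mod m (2 ^ Nat.log 2 m)
    have e2 := Nat.mod_lt m (Nat.two_pow_pos (Nat.log 2 m))
    have e3 : n = 2 ^ lg2 n * (d * (m / 2 ^ Nat.log 2 m + 1)) + aa m r := by
      rw [← mul_assoc, ← hd, mul_add, mul_one]
      rw [pp, if_neg hz] at hn
      omega
    have e4 : lg2 n < 2 ^ lg2 n := Nat.lt_two_pow_self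
    have e5 := Nat.mul_add_mod (2 ^ lg2 n) (d * (m / 2 ^ Nat.log 2 m + 1)) (aa m r)
    rw [← e3] at e5
    rw [code, e5, Nat.mod_eq_of_lt (by omega)]
  refine ⟨h8, ?_⟩
  have h9 : Nat.clog 2 (64 * r) ≤ aa m r := by
    refine le_min ?_ le_rfl
    by_contra h
    have e : aa m r = m := min_eq_left (not_le.1 h).le
    have e1 : 2 ^ m ≤ (2 ^ m) ^ 1000 := Nat.le_self_pow (by norm_num) _
    have e2 : m < 2 ^ m := Nat.lt_two_pow_self
    have e3 := Nat.log_le_self 2 m
    rw [e] at h2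
    exact absurd (e1.trans (h2.trans e3)) (not_le.2 e2)
  refine (Nat.le_pow_clog (by norm_num) _).trans (num_pow_le (h9.trans ?_))
  unfold vv
  omega

/-- One program for all accuracies. -/
theorem upper_scheme : ∃ (k : ℕ) (P : List Instr) (C : ℝ), 0 ≤ C ∧
    ∀ (n σ w T r : ℕ) (x y : List ℕ), x.length ≤ n → y.length ≤ n → 1 ≤ r → 0 < σ →
      (∀ a ∈ x ++ y, a < σ) → σ * (n + r + 2) ^ k ≤ 2 ^ w → bd C r (n + 16) ≤ T →
      Scheme P w T x y r := by
  obtain ⟨k, n0, K, Q, hb, hQ⟩ := solves pt_code 0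
  obtain ⟨c, hc, hm⟩ : ∃ c, 2 ≤ c ∧ mxP (wrap Q) + 1 ≤ 2 ^ c :=
    ⟨mxP (wrap Q) + 2, by omega, le_trans (by omega) Nat.lt_two_pow_self.le⟩
  refine ⟨2 * k + 801 + c, fullR c (wrap Q), 12 * K + 2000000, by positivity,
    fun n σ w T r x y hx hy hr hσ hs hw hT => ?_⟩
  obtain ⟨b, rfl, h3, h4⟩ := split_w hσ (by omega) hw
  obtain ⟨m, hm0⟩ : ∃ m, m = max x.length y.length := ⟨_, rfl⟩
  have hn : m ≤ n := hm0 ▸ max_le hx hy
  have hp := pp_le m r
  have w1 : ∀ j, j ≤ k + 400 → (m + pp m r + 2) ^ j ≤ 2 ^ b := fun j hj => by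
    refine le_trans ?_ ((Nat.pow_le_pow_right (by omega) (show 2 * j ≤ _ by omega)).trans h3)
    rw [pow_mul]
    exact Nat.pow_le_pow_left (by nlinarith) _
  have w2 : (128 * r + 3 * m + 1000) ^ 100 < 2 ^ b := by
    refine lt_of_lt_of_le ?_ ((Nat.pow_le_pow_right (by omega)
      (show 8 * 100 ≤ _ by omega)).trans h3)
    rw [pow_mul]
    refine Nat.pow_lt_pow_left ?_ (by norm_num)
    have e : 3 ^ 7 * (n + r + 2) ≤ (n + r + 2) ^ 8 := by
      rw [pow_succ _ 7]
      exact Nat.mul_le_mul_right _ (Nat.pow_le_pow_left (by omega) _)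
    omega
  have w3 : 128 * r + 3 * m + 1000 < 2 ^ b :=
    lt_of_le_of_lt (Nat.le_self_pow (by norm_num) _) w2
  have hb1 : 1 ≤ b := by
    rcases b with _ | b
    · simp at w3
    · omega
  have hs' : ∀ a ∈ x ++ y, a < 2 ^ b := fun a ha => (hs a ha).trans_le h4
  have hs2 : ∀ a ∈ x ++ (y ++ [r]), a < 2 ^ b := fun a ha => by
    rw [← List.append_assoc, List.mem_append, List.mem_singleton] at ha
    rcases ha with ha | rfl
    · exact hs' a ha
    · omega
  have hs3 : ∀ a ∈ (x ++ List.replicate (pp m r) 0) ++ (y ++ List.replicate (pp m r) 0),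
      a < 2 ^ b := fun a ha => by
    simp only [List.mem_append, List.mem_replicate] at ha
    rcases ha with (ha | ha) | ha | ha
    · exact hs' a (List.mem_append_left _ ha)
    · omega
    · exact hs' a (List.mem_append_right _ ha)
    · omega
  have hl : m + pp m r = max (x ++ List.replicate (pp m r) 0).length
      (y ++ List.replicate (pp m r) 0).length := by
    simp only [List.length_append, List.length_replicate]
    omega
  have hN16 := cast16 n
  have hr' : (1 : ℝ) ≤ r := Nat.one_le_cast.2 hr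
  have hn' : (m : ℝ) ≤ n := Nat.cast_le.2 hn
  have hK : (0 : ℝ) ≤ K := Nat.cast_nonneg K
  obtain ⟨X, hX⟩ : ∃ X, X = ((n : ℝ) + 16) ^ (1 + (12 * K + 2000000) * rho r (n + 16)) :=
    ⟨_, rfl⟩
  have x1 : (n : ℝ) + 16 ≤ X := hX ▸ self_le hr' hN16 (by positivity)
  have x2 : (12 * K + 2000000) * X ≤ T := hX ▸ hT
  have x3 : 0 ≤ K * X := mul_nonneg hK (by linarith)
  have hmono : ∀ D : ℝ, D ≤ 12 * K + 2000000 →
      ((n : ℝ) + 16) ^ (1 + D * rho r (n + 16)) ≤ X := fun D hD => by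
    rw [hX]
    refine Real.rpow_le_rpow_of_exponent_le (by linarith) ?_
    have := mul_le_mul_of_nonneg_right hD (rho_nonneg hr' hN16)
    linarith
  have hED : (0 : ℝ) ≤ ED x y := Nat.cast_nonneg _
  have key : (∀ ρ : ℕ → ℕ, (∀ i, ρ i < 2 ^ b) → ∃ (t : ℕ) (s : State),
      Exec (2 ^ b) ρ (if zz m r = 0 then exactP else Q) (State.init
        (x ++ List.replicate (pp m r) 0) (y ++ List.replicate (pp m r) 0)) t s ∧
        (t : ℝ) ≤ (K + 3024) * X) ∧
      2 * Nat.card (Fin T → Fin (2 ^ b)) ≤ 3 * Nat.card {ρ : Fin T → Fin (2 ^ b) //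
        ∃ (t : ℕ) (s : State), Exec (2 ^ b) (tape ρ) (if zz m r = 0 then exactP else Q)
          (State.init (x ++ List.replicate (pp m r) 0) (y ++ List.replicate (pp m r) 0)) t s ∧
          ED x y ≤ s.reg 2 ∧ ((s.reg 2 : ℕ) : ℝ) ≤ (1 + 1 / (r : ℝ)) * ED x y} := by
    by_cases hz : zz m r = 0
    · rw [if_pos hz]
      obtain ⟨H1, H2⟩ := exact_solves _ _ _ b hl (w1 _ (by omega)) hs3
      have t1 : ((360 * ((m + pp m r + 1) * (2 * (m + pp m r) + 1)) + 4 : ℕ) : ℝ) ≤
          (K + 3024) * X := by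
        have a1 : (Nat.log 2 m : ℝ) ≤ (128 * r) ^ 1000 := by
          have a2 : Nat.log 2 m < (2 ^ aa m r) ^ 1000 :=
            (Nat.div_eq_zero_iff_lt (Nat.pow_pos (Nat.two_pow_pos _))).1 hz
          exact_mod_cast a2.le.trans (Nat.pow_le_pow_left (aa_le hr) _)
        have a2 := exact_le (N := n + 16) (Nat.lt_pow_succ_log_self (by norm_num : 1 < 2) m) a1 hr'
          (by linarith)
        have a3 := hmono 2000000 (by linarith)
        rw [Real.rpow_add (by linarith), Real.rpow_one] at a3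
        have m0 : (0 : ℝ) ≤ m := Nat.cast_nonneg m
        have a4 : ((m : ℝ) + 16) * (m + 16) ≤ X :=
          (mul_le_mul (by linarith) a2 (by linarith) (by linarith)).trans a3
        rw [pp, if_pos hz]
        push_cast
        nlinarith
      refine ⟨fun ρ hρ => ?_, (H2 T (t1.trans (by linarith))).trans (Nat.mul_le_mul_left _ ?_)⟩
      · obtain ⟨t, s, he, ht⟩ := H1 ρ hρ
        exact ⟨t, s, he, ht.trans t1⟩
      · refine Nat.card_le_card_of_injective (Subtype.map id fun ρ hρ => ?_)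
          (Subtype.map_injective _ Function.injective_id)
        obtain ⟨t, s, he, g⟩ := hρ
        rw [ED_pad] at g
        refine ⟨t, s, he, g.ge, ?_⟩
        have : 0 ≤ 1 / (r : ℝ) * ED x y := by positivity
        rw [g]
        linarith
    · rw [if_neg hz]
      obtain ⟨H1, H2⟩ := hQ _ _ _ b hl (w1 _ (by omega)) hs3
      have t1 : (tim code n0 K (m + pp m r) : ℝ) ≤ (K + 3024) * X := by
        refine (tim_le (s := aa m r) (r := r) (N := n + 16)
          (fun h => ⟨(hb _ h).1, (pad_facts hz rfl (hb _ h).1).1.le⟩)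
          (by exact_mod_cast aa_le hr) hr' hN16 ?_).trans
          (mul_le_mul_of_nonneg_left (hmono _ (by linarith)) (by linarith))
        have : ((pp m r : ℕ) : ℝ) ≤ 2 * m := by exact_mod_cast hp
        push_cast
        linarith
      have hacc : acc code n0 (m + pp m r) ≤ 1 / (r : ℝ) := by
        unfold acc
        split_ifs with h
        · positivity
        · have b1 : (64 : ℝ) * r ≤ 2 ^ vv code (m + pp m r) := by
            exact_mod_cast (pad_facts hz rfl (hb _ (not_lt.1 h)).1).2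
          rw [div_le_div_iff₀ (by positivity) (by linarith)]
          linarith
      refine ⟨fun ρ hρ => ?_, (H2 T (t1.trans (by linarith))).trans (Nat.mul_le_mul_left _ ?_)⟩
      · obtain ⟨t, s, he, ht⟩ := H1 ρ hρ
        exact ⟨t, s, he, ht.trans t1⟩
      · refine Nat.card_le_card_of_injective (Subtype.map id fun ρ hρ => ?_)
          (Subtype.map_injective _ Function.injective_id)
        obtain ⟨t, s, he, g1, g2⟩ := hρ
        rw [ED_pad] at g1 g2
        rw [← hl] at g2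
        exact ⟨t, s, he, g1, g2.trans (mul_le_mul_of_nonneg_right (by linarith) hED)⟩
  refine flat (fun D => ED x y ≤ D ∧ (D : ℝ) ≤ (1 + 1 / (r : ℝ)) * ED x y)
    (fun ρ t s h => fullR_run hb1 hc hm ρ (by omega) hs2 h) (fun ρ hρ => ?_)
    (key.2.trans (Nat.mul_le_mul_left _ ?_))
  · obtain ⟨t, s, he, ht⟩ := key.1 ρ hρ
    obtain ⟨t', he', ht'⟩ := wrap_exec Q hρ hm0 hr w2 hs' he
    refine ⟨t', s, he', ?_⟩
    have hx' : (x.length : ℝ) ≤ n := Nat.cast_le.2 hx
    have hy' : (y.length : ℝ) ≤ n := Nat.cast_le.2 hy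
    have ht2 : (t' : ℝ) ≤ t + 52 * m + 6114 := by exact_mod_cast ht'
    have : ((4 * t' + (32 * (x.length + y.length) + 200) : ℕ) : ℝ) ≤ T := by
      push_cast
      linarith
    exact_mod_cast this
  · refine Nat.card_le_card_of_injective (Subtype.map id fun ρ hρ => ?_)
      (Subtype.map_injective _ Function.injective_id)
    obtain ⟨t, s, he, g⟩ := hρ
    obtain ⟨t', he', -⟩ := wrap_exec Q (fun i => by
      unfold tape
      split_ifs with h
      · exact (ρ ⟨i, h⟩).isLt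
      · exact Nat.two_pow_pos b) hm0 hr w2 hs' he
    exact ⟨t', s, he', g⟩

end Vale.Agent.N315
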