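import Vale.Agent.P315Z.Num

/-! N315: parameters with a variable accuracy `64 / 2 ^ v` and a tree of arity `(log n) ^ (1/4)`. -/

set_option autoImplicit false

namespace Vale.Agent.N315

open Vale.Agent.P315.RAM Vale.Agent.P315Z

/-- The exponent of the accuracy: `a n`, cut to the range from `log log log n` to
`(log log n) / 1000`. -/
def vv (a : ℕ → ℕ) (n : ℕ) : ℕ := min (max (a n) (lg3 n)) (lg2 n / 1000)

/-- The parameters for the accuracy `64 / 2 ^ v` and the lengths `lx`, `ly`. -/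
def parV (v lx ly : ℕ) : Par where
  lx := lx
  ly := ly
  lb := lg2 (max lx ly) / 4
  k := lg1 (max lx ly) / (lg2 (max lx ly) / 4) + 1
  lg := 7 * v + 6
  lc := 17 * v + 12
  lK := 24 * v + 27
  lS := 51 * v + 61
  lm := Nat.log 2 (lg1 (max lx ly) / (lg2 (max lx ly) / 4) + 1) - 6 * v
  ne := 2 * (lg2 (max lx ly) / 4 * 2 ^ lg3 (max lx ly) + (lg2 (max lx ly) + 9)) + 4
  hA := 2 ^ lg3 (max lx ly) - 1
  dl := lg2 (max lx ly) + 9
  le := v
  lA := 5 * lg2 (max lx ly) + 30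

/-- The parameters for the lengths `lx`, `ly`. -/
def par (a : ℕ → ℕ) (lx ly : ℕ) : Par := parV (vv a (max lx ly)) lx ly

/-- Number of bits of the numbers of the feed. -/
def mb (a : ℕ → ℕ) (lx ly : ℕ) : ℕ := lg1 (max lx ly) + (par a lx ly).lE

/-- The iterated logarithms are large. -/
structure Bg (n u L G : ℕ) : Prop where
  u0 : 1000 ≤ u
  uL : 1000 * u ≤ L
  LW : L ≤ 2 ^ u
  WL : 2 ^ u ≤ 2 * L
  WZ : 1000 * 2 ^ u ≤ 2 ^ u * 2 ^ u
  ZY : 1000 * (2 ^ u * 2 ^ u) ≤ 2 ^ u * 2 ^ u * 2 ^ u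
  YX : 1000 * (2 ^ u * 2 ^ u * 2 ^ u) ≤ 2 ^ u * 2 ^ u * 2 ^ u * 2 ^ u
  YG : 1000 * (2 ^ u * 2 ^ u * 2 ^ u * 2 ^ u) ≤ G
  GX : G ≤ 2 ^ L
  XG : 2 ^ L ≤ 2 * G
  nG : n + 2 ≤ 2 ^ G
  Gn : 2 ^ G ≤ 2 * (n + 1)

theorem bg_of_big {c n u L G : ℕ} (b : Big c n u L G) : Bg n u L G := by
  have := b.c0; have := b.cu; have := b.uA; have := b.AW; have := b.WL; have := b.XG
  have h1 : 1000 ≤ 2 ^ u := by omega
  refine ⟨by omega, by omega, b.LW, b.WL, Nat.mul_le_mul_right _ h1, ?_, ?_, ?_, b.GX, b.XG,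
    b.nG, b.Gn⟩
  · rw [mul_comm 1000]
    exact Nat.mul_le_mul_left _ h1
  · rw [mul_comm 1000]
    exact Nat.mul_le_mul_left _ h1
  · have h2 : 2 ^ 11 * (2 ^ u * 2 ^ u * 2 ^ u * 2 ^ u) ≤ 2 ^ L := by
      rw [← pow_add, ← pow_add, ← pow_add, ← pow_add]
      exact num_pow_le (by omega)
    omega

theorem bg_ex (c : ℕ) : ∃ n0, ∀ n, n0 ≤ n → Bg n (lg3 n) (lg2 n) (lg1 n) ∧ c ≤ lg3 n := by
  obtain ⟨n0, h⟩ := big_ex (le_max_left 1000 c)
  exact ⟨n0, fun n hn => ⟨bg_of_big (h n hn), (le_max_right _ _).trans (h n hn).cu⟩⟩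

/-- The form of the parameters. -/
structure Sh (P : Par) (n u L G v : ℕ) : Prop where
  lx : P.lx ≤ n
  ly : P.ly ≤ n
  uv : u ≤ v
  vL : 1000 * v ≤ L
  lb1 : 4 * P.lb ≤ L
  lb2 : L < 4 * P.lb + 4
  k : P.k = G / P.lb + 1
  lg : P.lg = 7 * v + 6
  lc : P.lc = 17 * v + 12
  lK : P.lK = 24 * v + 27
  lS : P.lS = 51 * v + 61
  lm : P.lm = Nat.log 2 P.k - 6 * v
  ne : P.ne = 2 * (P.lb * 2 ^ u + (L + 9)) + 4
  hA : P.hA = 2 ^ u - 1
  dl : P.dl = L + 9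
  le : P.le = v
  lA : P.lA = 5 * L + 30

theorem vv_range (a : ℕ → ℕ) {n : ℕ} (b : Bg n (lg3 n) (lg2 n) (lg1 n)) :
    lg3 n ≤ vv a n ∧ 1000 * vv a n ≤ lg2 n := by
  have := b.uL
  unfold vv
  omega

theorem par_sh (a : ℕ → ℕ) {lx ly : ℕ}
    (b : Bg (max lx ly) (lg3 (max lx ly)) (lg2 (max lx ly)) (lg1 (max lx ly))) :
    Sh (par a lx ly) (max lx ly) (lg3 (max lx ly)) (lg2 (max lx ly)) (lg1 (max lx ly))
      (vv a (max lx ly)) :=
  ⟨le_max_left _ _, le_max_right _ _, (vv_range a b).1, (vv_range a b).2,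
    Nat.mul_div_le _ _, Nat.lt_mul_div_succ _ (by norm_num), rfl, rfl, rfl, rfl, rfl, rfl, rfl,
    rfl, rfl, rfl, rfl⟩

section bounds

variable {P : Par} {n u L G v : ℕ}

theorem Sh.ha (h : Sh P n u L G v) : P.ha = 2 ^ u := by
  unfold Par.ha
  have := Nat.two_pow_pos u
  rw [h.hA]
  omega

theorem Sh.lbha (h : Sh P n u L G v) (b : Bg n u L G) :
    P.lb * P.ha = P.lb * 2 ^ u ∧ 4 * (P.lb * 2 ^ u) ≤ 2 ^ u * 2 ^ u := by
  refine ⟨by rw [h.ha], ?_⟩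
  rw [← mul_assoc]
  exact Nat.mul_le_mul_right _ (h.lb1.trans b.LW)

theorem Sh.lbk (h : Sh P n u L G v) (b : Bg n u L G) :
    G < P.lb * P.k ∧ P.lb * P.k ≤ G + P.lb := by
  have := b.u0; have := b.uL; have := h.lb2
  rw [h.k]
  refine ⟨Nat.lt_mul_div_succ _ (by omega), ?_⟩
  rw [mul_add, mul_one]
  exact Nat.add_le_add_right (Nat.mul_div_le _ _) _

theorem Sh.kG (h : Sh P n u L G v) (b : Bg n u L G) : 1 ≤ P.k ∧ P.k ≤ G := by
  have := b.u0; have := b.uL; have := b.LW; have := b.WZ; have := b.ZY; have := b.YX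
  have := b.YG; have := h.lb2
  rw [h.k]
  exact ⟨Nat.le_add_left _ _, Nat.div_lt_self (by omega) (by omega)⟩

theorem Sh.lm_le (h : Sh P n u L G v) (b : Bg n u L G) : P.lm ≤ L := by
  have h1 := h.kG b
  have h2 := Nat.pow_log_le_self 2 (show P.k ≠ 0 by omega)
  have h3 := num_le_of_pow (h2.trans (h1.2.trans b.GX))
  rw [h.lm]
  omega

theorem Sh.k_big (h : Sh P n u L G v) (b : Bg n u L G) {e : ℕ} (he : e + u + 1 ≤ L) :
    2 ^ e ≤ P.k := by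
  have h1 := (h.lbk b).1
  have h2 := b.XG
  have h3 := b.LW
  have h7 := h.lb1
  have h4 : P.lb * P.k ≤ 2 ^ u * P.k := Nat.mul_le_mul_right _ (by omega)
  have h5 := num_pow_le he
  rw [pow_succ, pow_add, mul_comm (2 ^ e)] at h5
  have h6 : 2 ^ u * 2 ^ e ≤ 2 ^ u * P.k := by omega
  exact Nat.le_of_mul_le_mul_left h6 (Nat.two_pow_pos u)

theorem Sh.m_eq (h : Sh P n u L G v) (b : Bg n u L G) :
    P.m * 2 ^ (6 * v) ≤ P.k ∧ P.k ≤ 2 * (P.m * 2 ^ (6 * v)) := by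
  have := b.u0; have := h.uv; have := h.vL
  have h1 := h.kG b
  have h2 := Nat.pow_log_le_self 2 (show P.k ≠ 0 by omega)
  have h3 := Nat.lt_pow_succ_log_self (by norm_num : 1 < 2) P.k
  have h4 : 2 ^ (6 * v) ≤ P.k := h.k_big b (by omega)
  have h5 : 6 * v ≤ Nat.log 2 P.k := Nat.le_log_of_pow_le (by norm_num) h4
  have e : P.m * 2 ^ (6 * v) = 2 ^ Nat.log 2 P.k := by
    unfold Par.m
    rw [h.lm, ← pow_add, Nat.sub_add_cancel h5]
  rw [Nat.succ_eq_add_one, pow_succ] at h3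
  rw [e]
  omega

/-- The exponents of medium size. -/
theorem Sh.med (h : Sh P n u L G v) (b : Bg n u L G) :
    P.la1 ≤ 2 ^ u * 2 ^ u ∧ P.lG ≤ 2 ^ u * 2 ^ u ∧ P.lnn ≤ 2 ^ u * 2 ^ u ∧
      P.LA ≤ 2 ^ u * 2 ^ u ∧ P.lN ≤ 5 * (2 ^ u * 2 ^ u) ∧ P.lE ≤ 5 * (2 ^ u * 2 ^ u) ∧
      P.ne ≤ 2 ^ u * 2 ^ u := by
  have := b.u0; have := b.uL; have := b.LW; have := b.WZ; have := h.vL
  have := h.lbha b; have := h.lm_le b; have := h.lb1; have := h.lS; have := h.ne; have := h.dl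
  have := h.le; have := h.lA
  unfold Par.lN Par.lE Par.nH Par.nA Par.l1 Par.lnn Par.lG Par.la1 Par.la0 Par.LA
  omega

theorem Sh.lcnt_le (h : Sh P n u L G v) (b : Bg n u L G) :
    P.lcnt ≤ 256 * (2 ^ L * 2 ^ L) := by
  have := b.u0; have := b.uL; have := b.LW; have := b.WZ; have := b.ZY; have := b.YX
  have := b.YG; have := b.GX; have := h.lb1
  have := h.lbk b; have := h.kG b; have := h.dl; have := h.med b
  have h1 : (P.k + 1) * P.LA ≤ 2 * 2 ^ L * 2 ^ L := Nat.mul_le_mul (by omega) (by omega)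
  have h2 : 2 ^ L ≤ 2 ^ L * 2 ^ L := Nat.le_mul_of_pos_right _ (Nat.two_pow_pos L)
  rw [mul_assoc] at h1
  unfold Par.lcnt Par.am Par.km Par.a0
  omega

theorem Sh.ok (h : Sh P n u L G v) (b : Bg n u L G) : P.Ok := by
  have := b.u0; have := b.uL; have := b.LW; have := b.WZ; have := b.ZY; have := b.YX
  have := b.YG; have := b.GX; have := b.WL; have := b.nG; have := h.uv; have := h.vL
  have := h.lb1; have := h.lb2
  have hlbk := h.lbk b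
  have hk := h.kG b
  have hmed := h.med b
  have hm := h.m_eq b
  have hB : 2 ^ G ≤ P.B ^ P.k := by
    unfold Par.B
    rw [← pow_mul]
    exact num_pow_le hlbk.1.le
  have hleta : 2 * P.leta + P.le = 2 * P.lb + 111 * v + 132 := by
    unfold Par.leta Par.h3
    rw [h.lK, h.lg, h.le]
    ring
  have hbig : 256 * (2 ^ (2 * P.leta + P.le) * 2 ^ (6 * v)) ≤ P.m := by
    have h1 : 2 ^ (2 * P.leta + P.le + 6 * v + 6 * v + 9) ≤ P.k := h.k_big b (by omega)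
    rw [pow_add, pow_add, pow_add] at h1
    refine Nat.le_of_mul_le_mul_right (c := 2 ^ (6 * v)) ?_ (Nat.two_pow_pos _)
    rw [mul_assoc]
    omega
  have hsix : 2 ^ (2 * P.leta + P.le) ≤ 2 ^ (2 * P.leta + P.le) * 2 ^ (6 * v) :=
    Nat.le_mul_of_pos_right _ (Nat.two_pow_pos _)
  refine ⟨by omega, hk.1, by rw [h.le]; omega, by have := h.lx; omega,
    by have := h.ly; omega, by rw [h.lc, h.lg, h.lK]; omega, ?_, ?_, ?_, ?_, ?_, ?_, by omega, ?_⟩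
  · unfold Par.gd Par.capd
    calc 2 ^ P.lg * 2 ^ P.lg * (4 * P.lnn + 2)
        ≤ 2 ^ P.lg * 2 ^ P.lg * (2 ^ 3 * (2 ^ u * 2 ^ u)) := Nat.mul_le_mul_left _ (by omega)
      _ ≤ 2 ^ P.lc := by
          rw [← pow_add, ← pow_add, ← pow_add, ← pow_add]
          exact num_pow_le (by rw [h.lg, h.lc]; omega)
  · unfold Par.K
    have h1 := h.lm_le b
    have h2 := h.lg
    calc 128 * (2 ^ P.lK * 2 ^ P.lK) * (P.lm + 2 * P.lG + P.lg + 5)
        ≤ 2 ^ 7 * (2 ^ P.lK * 2 ^ P.lK) * (2 ^ 2 * (2 ^ u * 2 ^ u)) :=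
          Nat.mul_le_mul_left _ (by omega)
      _ ≤ 2 ^ P.lS := by
          rw [← pow_add, ← pow_add, ← pow_add, ← pow_add, ← pow_add]
          exact num_pow_le (by rw [h.lK, h.lS]; omega)
  · rw [h.dl, pow_add]
    omega
  · have h1 := h.lcnt_le b
    have h2 : P.LA ≤ 2 ^ L := by omega
    calc 16 * P.LA * 2 ^ (2 * P.dl) * P.lcnt
        ≤ 2 ^ 4 * 2 ^ L * 2 ^ (2 * P.dl) * (2 ^ 8 * (2 ^ L * 2 ^ L)) :=
          Nat.mul_le_mul (Nat.mul_le_mul_right _ (Nat.mul_le_mul_left _ h2)) h1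
      _ ≤ 2 ^ P.lA := by
          rw [← pow_add, ← pow_add, ← pow_add, ← pow_add, ← pow_add]
          exact num_pow_le (by rw [h.dl, h.lA]; omega)
  · unfold Par.gd
    have e : P.m * 2 ^ P.lg = 32 * (2 * (P.m * 2 ^ (6 * v))) * 2 ^ v := by
      rw [h.lg, show 7 * v + 6 = 6 * v + v + 6 by ring, pow_add, pow_add]
      ring
    rw [e, h.le]
    exact Nat.mul_le_mul_right _ (by omega)
  · calc 40 * (P.k + 1) * 2 ^ (2 * P.leta + P.le)
        ≤ 256 * (P.m * 2 ^ (6 * v)) * 2 ^ (2 * P.leta + P.le) :=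
          Nat.mul_le_mul_right _ (by omega)
      _ = P.m * (256 * (2 ^ (2 * P.leta + P.le) * 2 ^ (6 * v))) := by ring
      _ ≤ P.m * P.m := Nat.mul_le_mul_left _ hbig
  · unfold Par.la0
    rw [(h.lbha b).1, h.dl, h.ne]

theorem Sh.lQ_le (h : Sh P n u L G v) (b : Bg n u L G) :
    P.lQ ≤ G + 120 * (v * P.k) + 2 * (2 ^ u * 2 ^ u * 2 ^ u) := by
  have := b.u0; have := b.uL; have := b.LW; have := b.WZ; have := b.ZY
  have := h.uv; have := h.vL; have := h.lb1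
  have hlbk := h.lbk b
  have hmed := h.med b
  have hm := h.m_eq b
  have h1 : Nat.clog 2 P.LA ≤ 2 * u := by
    refine (Nat.clog_le_iff_le_pow (by norm_num)).2 ?_
    rw [← num_sq]
    omega
  have h2 : Nat.clog 2 (P.h + 1) ≤ u := by
    refine (Nat.clog_le_iff_le_pow (by norm_num)).2 ?_
    unfold Par.h
    omega
  have h3 : Nat.clog 2 (P.h2 + 5) ≤ u := by
    refine (Nat.clog_le_iff_le_pow (by norm_num)).2 ?_
    unfold Par.h2
    rw [h.lK]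
    omega
  have h4 : P.lL * P.k ≤ 110 * (v * P.k) := by
    rw [← mul_assoc]
    refine Nat.mul_le_mul_right _ ?_
    unfold Par.lL
    rw [h.lS, h.lK]
    omega
  have h5 : (P.k / P.ha + 1) * (P.lA + Nat.clog 2 P.LA + 4) ≤ 7 * P.k + 7 * 2 ^ u := by
    have a1 : P.k / P.ha * P.ha ≤ P.k := Nat.div_mul_le_self _ _
    have a2 : (P.k / P.ha + 1) * (P.lA + Nat.clog 2 P.LA + 4) ≤ (P.k / P.ha + 1) * (6 * P.ha) := by
      refine Nat.mul_le_mul_left _ ?_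
      rw [h.lA, h.ha]
      omega
    have a3 : (P.k / P.ha + 1) * (6 * P.ha) = 6 * (P.k / P.ha * P.ha) + 6 * P.ha := by ring
    have a4 := h.ha
    omega
  have h6 : P.lY ≤ 2 ^ u * 2 ^ u * 2 ^ u := by
    unfold Par.lY Par.lT
    omega
  have h7 : P.lY * P.Tend ≤ P.k + 2 ^ u * 2 ^ u * 2 ^ u := by
    unfold Par.Tend
    rw [mul_add, mul_one, ← mul_assoc]
    refine Nat.add_le_add (le_trans ?_ hm.1) h6
    rw [mul_comm P.m]
    refine Nat.mul_le_mul_right _ ?_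
    calc P.lY * P.ne ≤ 2 ^ u * 2 ^ u * 2 ^ u * (2 ^ u * 2 ^ u) := Nat.mul_le_mul h6 (by omega)
      _ ≤ 2 ^ (6 * v) := by
        rw [← pow_add, ← pow_add, ← pow_add]
        exact num_pow_le (by omega)
  have h8 : P.k ≤ v * P.k := Nat.le_mul_of_pos_left _ (by omega)
  have h9 := h.lbha b
  unfold Par.lQ Par.lM Par.lT
  rw [add_mul P.lb]
  omega

theorem Sh.Lk (h : Sh P n u L G v) (b : Bg n u L G) : L * P.k ≤ 6 * G := by
  have := b.u0; have := b.uL; have := b.LW; have := b.WZ; have := b.ZY; have := b.YX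
  have := b.YG; have := h.lb1; have := h.lb2
  have h1 := (h.lbk b).2
  have h2 : L * P.k ≤ 5 * P.lb * P.k := Nat.mul_le_mul_right _ (by omega)
  rw [mul_assoc] at h2
  omega

theorem Sh.vk (h : Sh P n u L G v) (b : Bg n u L G) : 1000 * (v * P.k) ≤ 6 * G := by
  refine le_trans ?_ (h.Lk b)
  rw [← mul_assoc]
  exact Nat.mul_le_mul_right _ h.vL

theorem Sh.esize_le (h : Sh P n u L G v) (b : Bg n u L G) :
    Vale.Agent.Lib.PolyTime.esize P ≤ 2 * P.NS + 40 * 2 ^ L := by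
  have := b.u0; have := b.uL; have := b.LW; have := b.WZ; have := b.ZY; have := b.YX
  have := b.YG; have := b.GX; have := b.nG; have := h.vL
  have := h.lx; have := h.ly; have := h.lb1; have := h.lg; have := h.lc; have := h.lK
  have := h.lS; have := h.hA; have := h.dl; have := h.le; have := h.lA
  have := h.kG b; have := h.lm_le b; have := (h.med b).2.2.2.2.2.2
  have h1 : Vale.Agent.Lib.PolyTime.esize P.lx ≤ G :=
    Vale.Agent.Lib.PolyTime.esize_nat_le (by omega)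
  have h2 : Vale.Agent.Lib.PolyTime.esize P.ly ≤ G :=
    Vale.Agent.Lib.PolyTime.esize_nat_le (by omega)
  rw [esize_par]
  simp only [Vale.Agent.Lib.PolyTime.esize_pair, Vale.Agent.Lib.PolyTime.esize_list_cons,
    Vale.Agent.Lib.PolyTime.esize_list_nil, Vale.Agent.Lib.PolyTime.esize_un]
  omega

/-- The sizes are at most fixed powers of `Y = 2 ^ (W * W * W)`. -/
theorem Sh.sizes (h : Sh P n u L G v) (b : Bg n u L G) {Y : ℕ}
    (hY : Y = 2 ^ (2 ^ u * 2 ^ u * 2 ^ u)) :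
    100 ≤ Y ∧ 41 * (G + P.lE) + 50 ≤ Y ∧ (2 + P.N) * Y ≤ Y ^ 4 ∧ P.szS ≤ Y ^ 6 := by
  have := b.u0; have := b.uL; have := b.LW; have := b.WZ; have := b.ZY; have := b.YX
  have := b.YG; have := b.GX; have := h.vL; have := h.lb1
  have hk := h.kG b
  have hmed := h.med b
  have hm := h.m_eq b
  have x1 : 16384 * (2 ^ L * 2 ^ L) ≤ Y := by
    rw [hY, show 16384 = 2 ^ 14 by norm_num, ← pow_add, ← pow_add]
    exact num_pow_le (by omega)
  have x2 : 2 ^ L ≤ 2 ^ L * 2 ^ L := Nat.le_mul_of_pos_right _ (Nat.two_pow_pos L)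
  have x3 : P.NS ≤ Y := by
    rw [hY]
    exact num_pow_le (by omega)
  have x4 : P.nb ≤ Y := by
    have a1 : (P.ne + P.k + 2) ^ 2 ≤ (3 * 2 ^ L) ^ 2 := Nat.pow_le_pow_left (by omega) 2
    have a2 : (3 * 2 ^ L) ^ 2 = 9 * (2 ^ L * 2 ^ L) := by ring
    unfold Par.nb
    omega
  have x5 : P.N ≤ Y ^ 2 := by
    rw [pow_two]
    exact Nat.mul_le_mul x4 x3
  have x6 : P.Tend ≤ 2 ^ L * 2 ^ L + 1 := by
    have a1 : P.m ≤ P.m * 2 ^ (6 * v) := Nat.le_mul_of_pos_right _ (Nat.two_pow_pos _)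
    exact Nat.add_le_add_right (Nat.mul_le_mul (by omega) (by omega)) 1
  have x7 := h.lcnt_le b
  have x8 : P.KB ≤ Y := by
    unfold Par.KB Par.h2
    rw [h.lK]
    omega
  have x9 : P.VB ≤ Y ^ 2 := by
    rw [pow_two]
    exact Nat.mul_le_mul x3 (by omega)
  have x10 : 2 ^ P.lT ≤ Y ^ 2 := by
    rw [hY, ← pow_mul]
    refine num_pow_le ?_
    unfold Par.lT
    omega
  have x11 := h.esize_le b
  have y0 : 100 ≤ Y := by omega
  have y : ∀ t, 100 * Y ^ t ≤ Y ^ (t + 1) := fun t => by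
    rw [pow_succ, mul_comm]
    exact Nat.mul_le_mul_left _ y0
  have y1 : 100 * Y ≤ Y ^ 2 := by simpa using y 1
  have y2 : 100 * Y ^ 2 ≤ Y ^ 3 := y 2
  have y3 : 100 * Y ^ 3 ≤ Y ^ 4 := y 3
  have y4 : 100 * Y ^ 4 ≤ Y ^ 5 := y 4
  have y5 : 100 * Y ^ 5 ≤ Y ^ 6 := y 5
  refine ⟨y0, by omega, ?_, ?_⟩
  · rw [show Y ^ 4 = Y ^ 3 * Y by ring]
    exact Nat.mul_le_mul_right _ (by omega)
  · have z1 : P.N * (2 * P.lE + 1) ≤ Y ^ 2 * Y := Nat.mul_le_mul x5 (by omega)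
    have z2 : 200 * (6 + 3 * (P.Tend + P.k)) * (2 ^ P.lT + 1) * (P.KB + P.VB + 2) ≤
        Y * (2 * Y ^ 2) * (2 * Y ^ 2) :=
      Nat.mul_le_mul (Nat.mul_le_mul (by omega) (by omega)) (by omega)
    have z3 : Y * (2 * Y ^ 2) * (2 * Y ^ 2) = 4 * Y ^ 5 := by ring
    have z4 : Y ^ 2 * Y = Y ^ 3 := by ring
    unfold Par.szS
    omega

theorem Sh.state (h : Sh P n u L G v) (b : Bg n u L G) {Y : ℕ}
    (hY : Y = 2 ^ (2 ^ u * 2 ^ u * 2 ^ u)) :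
    (2 + P.N) * (2 * (G + P.lE) + 1) + P.szS + 2 * (G + P.lE) + 10 ≤ Y ^ 7 := by
  obtain ⟨y0, y1, y2, y3⟩ := h.sizes b hY
  have a1 : (2 + P.N) * (2 * (G + P.lE) + 1) ≤ (2 + P.N) * Y := Nat.mul_le_mul_left _ (by omega)
  have a2 : Y ^ 4 ≤ Y ^ 6 := Nat.pow_le_pow_right (by omega) (by norm_num)
  have a3 : Y ≤ Y ^ 6 := Nat.le_self_pow (by norm_num) _
  have a4 : 100 * Y ^ 6 ≤ Y ^ 7 := by
    rw [show Y ^ 7 = Y * Y ^ 6 by ring]
    exact Nat.mul_le_mul_right _ y0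
  omega

theorem Sh.cost (h : Sh P n u L G v) (b : Bg n u L G) (k₁ k₂ : ℕ) :
    mainCost k₁ k₂ (P.lx + P.ly) (G + P.lE) (2 + P.N) (2 ^ P.lQ) P.szS 1 50 ≤
      1000 * (n + 1) + 4 * 2 ^ (P.lQ + 2 ^ u * 2 ^ u * 2 ^ u * (k₁ + 7 * k₂ + 4)) := by
  obtain ⟨Y, hY⟩ : ∃ Y, Y = 2 ^ (2 ^ u * 2 ^ u * 2 ^ u) := ⟨_, rfl⟩
  obtain ⟨y0, y1, y2, _⟩ := h.sizes b hY
  have y4 := h.state b hY
  have := h.lx; have := h.ly
  obtain ⟨T, hT⟩ : ∃ T, T = Y ^ (k₁ + 7 * k₂ + 4) := ⟨_, rfl⟩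
  have hp : ∀ t, t ≤ k₁ + 7 * k₂ + 4 → Y ^ t ≤ T := fun t ht => by
    rw [hT]
    exact Nat.pow_le_pow_right (by omega) ht
  have a1 : (4 * (G + P.lE) + 10) ^ k₁ ≤ T :=
    (Nat.pow_le_pow_left (by omega) _).trans (hp _ (by omega))
  have a2 : (2 + P.N) * (41 * (G + P.lE) + 50) ≤ T :=
    ((Nat.mul_le_mul_left _ y1).trans y2).trans (hp _ (by omega))
  have a3 : ((2 + P.N) * (2 * (G + P.lE) + 1) + P.szS + 2 * (G + P.lE) + 10) ^ k₂ ≤
      Y ^ (7 * k₂) := by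
    rw [pow_mul]
    exact Nat.pow_le_pow_left y4 _
  have a4 : (P.szS + 2 * (G + P.lE) + 10) ^ k₂ ≤ Y ^ (7 * k₂) := by
    rw [pow_mul]
    exact Nat.pow_le_pow_left (by omega) _
  have a5 : 100 * Y ^ (7 * k₂) ≤ T := by
    refine le_trans ?_ (hp (7 * k₂ + 1) (by omega))
    rw [pow_succ, mul_comm]
    exact Nat.mul_le_mul_left _ y0
  have a6 : 1 ≤ Y ^ (7 * k₂) := Nat.one_le_pow _ _ (by omega)
  have a7 : 2 ^ P.lQ * (50 + (1 + 1) * (P.szS + 2 * (G + P.lE) + 10) ^ k₂) ≤ 2 ^ P.lQ * T :=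
    Nat.mul_le_mul_left _ (by omega)
  have a8 : T ≤ 2 ^ P.lQ * T := Nat.le_mul_of_pos_left _ (Nat.two_pow_pos _)
  have e : 2 ^ (P.lQ + 2 ^ u * 2 ^ u * 2 ^ u * (k₁ + 7 * k₂ + 4)) = 2 ^ P.lQ * T := by
    rw [pow_add, pow_mul, ← hY, hT]
  rw [e]
  unfold mainCost
  omega

/-- The exponent of the cost exceeds `G` by at most `K v G / L`. -/
theorem Sh.expo (h : Sh P n u L G v) (b : Bg n u L G) (K : ℕ) :
    P.lQ + 2 ^ u * 2 ^ u * 2 ^ u * K ≤ G + (722 + K) * v * G / L := by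
  have := b.u0; have := b.uL; have := h.uv; have := b.YG
  have c1 := h.lQ_le b
  have c2 := h.Lk b
  have c3 : L * (2 ^ u * 2 ^ u * 2 ^ u) ≤ G := by
    have := Nat.mul_le_mul_left (2 ^ u * 2 ^ u * 2 ^ u) b.LW
    rw [mul_comm L]
    omega
  have c4 : G ≤ v * G := Nat.le_mul_of_pos_left _ (by omega)
  have c5 : 120 * (v * P.k) + 2 ^ u * 2 ^ u * 2 ^ u * (K + 2) ≤ (722 + K) * v * G / L := by
    rw [Nat.le_div_iff_mul_le (by omega)]
    have d1 : v * (L * P.k) ≤ v * (6 * G) := Nat.mul_le_mul_left _ c2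
    have d2 : (K + 2) * (L * (2 ^ u * 2 ^ u * 2 ^ u)) ≤ (K + 2) * (v * G) :=
      Nat.mul_le_mul_left _ (c3.trans c4)
    calc (120 * (v * P.k) + 2 ^ u * 2 ^ u * 2 ^ u * (K + 2)) * L
        = 120 * (v * (L * P.k)) + (K + 2) * (L * (2 ^ u * 2 ^ u * 2 ^ u)) := by ring
      _ ≤ 120 * (v * (6 * G)) + (K + 2) * (v * G) :=
          Nat.add_le_add (Nat.mul_le_mul_left _ d1) d2
      _ = (722 + K) * v * G := by ring
  rw [mul_add] at c5
  omega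

theorem Sh.fits (h : Sh P n u L G v) (b : Bg n u L G) :
    P.lx < 2 ^ (G + P.lE) ∧ P.ly < 2 ^ (G + P.lE) ∧ 0 < G + P.lE ∧ P.E ≤ 2 ^ (G + P.lE) ∧
    10 * (P.lx + P.ly + 10) ≤ (n + 2) ^ 6 ∧ 4 * (G + P.lE) + 10 ≤ (n + 2) ^ 6 ∧
    (2 + P.N) * (2 * (G + P.lE) + 1) + P.szS + 2 * (G + P.lE) + 10 ≤ (n + 2) ^ 6 ∧
    P.E ≤ (n + 2) ^ 6 ∧ 2 ^ P.lQ ≤ (n + 2) ^ 6 ∧ (P.lx + 1) * (P.ly + 1) ≤ (n + 2) ^ 6 ∧
    2 * P.B ^ P.k ≤ (n + 2) ^ 6 := by
  have := b.u0; have := b.uL; have := b.LW; have := b.WZ; have := b.ZY; have := b.YX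
  have := b.YG; have := b.nG; have := h.lx; have := h.ly; have := h.lb1
  have hmed := h.med b
  have a1 : 2 ^ G ≤ 2 ^ (G + P.lE) := num_pow_le (by omega)
  have a2 : 2 ^ (3 * G) ≤ (n + 2) ^ 6 := by
    rw [mul_comm, pow_mul, show 6 = 2 * 3 by norm_num, pow_mul]
    refine Nat.pow_le_pow_left (b.Gn.trans ?_) 3
    rw [pow_two]
    exact Nat.mul_le_mul (by omega) (by omega)
  have a3 : ∀ t, t ≤ 3 * G → 2 ^ t ≤ (n + 2) ^ 6 := fun t ht => (num_pow_le ht).trans a2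
  have a4 := h.state b rfl
  rw [← pow_mul] at a4
  have a5 := a4.trans (a3 _ (by omega))
  have a6 := a3 (G + 7) (by omega)
  rw [pow_add] at a6
  have a7 := h.lQ_le b
  have a8 := h.vk b
  have a10 := a3 (G + G) (by omega)
  rw [pow_add] at a10
  have a11 := (h.lbk b).2
  have a12 : 2 * (2 * (G + P.lE) + 1) ≤ (2 + P.N) * (2 * (G + P.lE) + 1) :=
    Nat.mul_le_mul_right _ (by omega)
  refine ⟨by omega, by omega, by omega, num_pow_le (by omega), by omega, by omega, a5,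
    a3 _ (by omega), a3 _ (by omega), le_trans (Nat.mul_le_mul (by omega) (by omega)) a10, ?_⟩
  unfold Par.B
  rw [← pow_mul, ← pow_succ']
  exact a3 _ (by omega)

end bounds

end Vale.Agent.N315
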