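import Vale.Agent.N315.Num
import Vale.Agent.P315Z.Final

/-! N315: the structured program for a variable accuracy. -/

set_option autoImplicit false

namespace Vale.Agent.N315

open Vale.Agent.P315.RAM Vale.Agent.P315Z
open Vale.Agent.P315 (ED Prog)
open Vale.Agent.Lib.PolyTime (PT PBd Enc esize)

theorem fg_parV {α : Type} [Enc α] {v x y : α → ℕ} (hv : PT ∅ v) (hb : PBd v) (hx : PT ∅ x)
    (hy : PT ∅ y) : Pt0.FG fun t => parV (v t) (x t) (y t) where
  lx := hx
  ly := hy
  lb := by simp only [parV]; fun_prop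
  blb := by simp only [parV]; fun_prop
  k := by simp only [parV]; fun_prop
  bk := by simp only [parV]; fun_prop
  lg := by simp only [parV]; fun_prop
  blg := by simp only [parV]; fun_prop
  lc := by simp only [parV]; fun_prop
  blc := by simp only [parV]; fun_prop
  lK := by simp only [parV]; fun_prop
  blK := by simp only [parV]; fun_prop
  lS := by simp only [parV]; fun_prop
  blS := by simp only [parV]; fun_prop
  lm := by simp only [parV]; fun_prop
  blm := by simp only [parV]; fun_prop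
  ne := by simp only [parV]; fun_prop
  bne := by simp only [parV]; fun_prop
  hA := by simp only [parV]; fun_prop
  bhA := by simp only [parV]; fun_prop
  dl := by simp only [parV]; fun_prop
  bdl := by simp only [parV]; fun_prop
  le := hv
  ble := hb
  lA := by simp only [parV]; fun_prop
  blA := by simp only [parV]; fun_prop
  bm := by
    have h : PBd fun t => lg1 (max (x t) (y t)) / (lg2 (max (x t) (y t)) / 4) + 1 := by fun_prop
    refine h.mono fun t => ?_
    simp only [Par.m, parV]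
    exact (Nat.pow_le_pow_right (by norm_num) (Nat.sub_le _ _)).trans
      (Nat.pow_log_le_self 2 (Nat.succ_ne_zero _))

variable {a : ℕ → ℕ}

theorem fg_par {α : Type} [Enc α] (ha : PT ∅ a) {x y : α → ℕ} (hx : PT ∅ x) (hy : PT ∅ y) :
    Pt0.FG fun t => par a (x t) (y t) := by
  have hm : PT ∅ fun t => max (x t) (y t) := hx.max hy
  refine fg_parV (v := fun t => vv a (max (x t) (y t))) ?_ ?_ hx hy
  · exact ((ha.comp hm).max (Pt0.PT_lg3 hm)).min ((Pt0.PT_lg2 hm).div (PT.const 1000))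
  · exact (Pt0.PBd_lg2 hm).mono fun t => (min_le_right _ _).trans (Nat.div_le_self _ _)

/-- The parameters read off the feed `lx, ly, seeds`. -/
def parF (a : ℕ → ℕ) (f : List ℕ) : Par × List ℕ :=
  (if (par a (f.getD 0 0) (f.getD 1 0)).NS ≤ f.length then par a (f.getD 0 0) (f.getD 1 0)
    else ⟨0, 0, 0, 0, 0, 0, 0, 0, 0, 0, 0, 0, 0, 0⟩, f.drop 2)

theorem pt_parF (ha : PT ∅ a) : PT ∅ (parF a) := by
  have h0 : PT ∅ fun f : List ℕ => f.getD 0 0 := PT.getD PT.id (PT.const 0) (PT.const 0)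
  have h1 : PT ∅ fun f : List ℕ => f.getD 1 0 := PT.getD PT.id (PT.const 1) (PT.const 0)
  have h := fg_par ha h0 h1
  have hl : PT ∅ fun f : List ℕ => f.length := PT.length PT.id
  refine PT.pair (f := fun f : List ℕ =>
      if (par a (f.getD 0 0) (f.getD 1 0)).NS ≤ f.length then par a (f.getD 0 0) (f.getD 1 0)
      else ⟨0, 0, 0, 0, 0, 0, 0, 0, 0, 0, 0, 0, 0, 0⟩)
    ((h.ite (PT.le h.NS hl) _).pt ?_) (PT.drop PT.id (PT.const 2))
  refine ((PBd.length (A := ∅) (PT.id (α := List ℕ))).add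
    (PBd.const (Par.NS ⟨0, 0, 0, 0, 0, 0, 0, 0, 0, 0, 0, 0, 0, 0⟩))).mono fun f => ?_
  split_ifs with hc
  · exact hc.trans (Nat.le_add_right _ _)
  · exact Nat.le_add_left _ _

/-- The parameters of the main program. -/
def bitF (ha : PT ∅ a) : BitF where
  m := fun p => mb a p.1 p.2
  N := fun p => (par a p.1 p.2).N
  e := fun p => (par a p.1 p.2).E
  Q := fun p => 2 ^ (par a p.1 p.2).lQ
  D := fun p => p.2 + 1
  pt_m := (Pt0.PT_lg1 (PT.max PT.fst' PT.snd')).add (fg_par ha PT.fst' PT.snd').lE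
  pt_N := (fg_par ha PT.fst' PT.snd').nb.mul (fg_par ha PT.fst' PT.snd').NS
  pt_e := PT.pow (PT.const 2) (fg_par ha PT.fst' PT.snd').lE (fg_par ha PT.fst' PT.snd').blE
  pt_Q := PT.pow (PT.const 2) (fg_par ha PT.fst' PT.snd').lQ (fg_par ha PT.fst' PT.snd').blQ
  pt_D := PT.add PT.snd' (PT.const 1)

/-- The strategy. -/
def strat (ha : PT ∅ a) : Strat (MState (Par × List ℕ) Key) :=
  mach.strat (parF a) (fun _ => kO) (pt_parF ha) (PT.const kO) pt_keyEq pt_ext pt_qs pt_body

theorem parF_feed (lx ly : ℕ) {cs : List ℕ} (h : cs.length = (par a lx ly).N) :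
    parF a ([lx, ly] ++ cs) = (par a lx ly, cs) := by
  have h1 := Final.NS_le_N (par a lx ly)
  have h2 : (par a lx ly).NS ≤ ([lx, ly] ++ cs).length := by
    simp only [List.length_append, List.length_cons, List.length_nil]
    omega
  unfold parF
  have e0 : ([lx, ly] ++ cs).getD 0 0 = lx := rfl
  have e1 : ([lx, ly] ++ cs).getD 1 0 = ly := rfl
  rw [e0, e1, if_pos h2]
  rfl

theorem run0 (ha : PT ∅ a) {P : Par} (hP : P.Ok) {cs feed : List ℕ} (hf : parF a feed = (P, cs))
    (h : cs.length = P.N) (hv : ∀ v ∈ cs, v < P.E) {bit : ℕ → ℕ} (hb : ∀ q, bit q ≤ 1)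
    {R : ℕ} (hR : 2 * P.B ^ P.k ≤ R) :
    (strat ha).fin (fun q => [bit q]) (2 ^ P.lQ) feed =
        outv P ((sysOf P (sds cs) bit).D P.Tend) ∧
      (strat ha).RunOk (fun q => [bit q]) (2 ^ P.lQ) feed P.szS ((P.lx + 1) * (P.ly + 1)) R := by
  obtain ⟨Ok, W, h0, hW, hB, hout⟩ := mach_bounds hP cs hb
  have hB' : mach.Bounds (parF a feed) bit Ok W P.KB P.VB (2 ^ P.lT)
      ((P.lx + 1) * (P.ly + 1)) := by
    rw [hf]; exact hB
  have hout' : (mach.val (parF a feed) bit kO).headD 0 ≤ R := by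
    rw [hf]; exact hout.trans hR
  have key := mach.run_ok (parF a) (fun _ => kO) (pt_parF ha) (PT.const kO) pt_keyEq pt_ext
    pt_qs pt_body feed bit (mach_wf _) (Q := 2 ^ P.lQ)
    (Nat.mul_pos (Nat.succ_pos _) (Nat.succ_pos _)) hB' h0 hW hout'
  obtain ⟨key1, key2⟩ := key
  rw [hf] at key1 key2
  refine ⟨key1.trans (val_kO _ _ _), Final.runOk_mono key2 ?_⟩
  have h1 := Final.esize_arg P h hv
  have h2 : mach.rank (P, cs) kO + 1 = 6 + 3 * (P.Tend + P.k) := by
    show rankF P kO + 1 = _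
    simp [rankF, kO]
    omega
  rw [h2]
  unfold Par.szS
  omega

theorem run_eq (ha : PT ∅ a) {x y : List ℕ} (hP : (par a x.length y.length).Ok) {cs : List ℕ}
    (h : cs.length = (par a x.length y.length).N)
    (hv : ∀ v ∈ cs, v < (par a x.length y.length).E)
    {R : ℕ} (hR : 2 * (par a x.length y.length).B ^ (par a x.length y.length).k ≤ R) :
    (strat ha).fin ((bitF ha).ans x y) ((bitF ha).Q (len2 x y)) ([x.length, y.length] ++ cs) =
        outv (par a x.length y.length) ((sysOf (par a x.length y.length) (sds cs)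
          (bitOf x y (y.length + 1))).D (par a x.length y.length).Tend) ∧
      (strat ha).RunOk ((bitF ha).ans x y) ((bitF ha).Q (len2 x y)) ([x.length, y.length] ++ cs)
        (par a x.length y.length).szS ((x.length + 1) * (y.length + 1)) R :=
  run0 ha hP (parF_feed x.length y.length h) h hv (Final.bitOf_le x y (y.length + 1)) hR

theorem prob_ok (ha : PT ∅ a) {x y : List ℕ} (hOk : (par a x.length y.length).Ok) {ε : ℝ}
    (hε : 64 ≤ ε * 2 ^ (par a x.length y.length).le) :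
    2 * Nat.card (Fin ((bitF ha).N (len2 x y)) → Fin ((bitF ha).e (len2 x y))) ≤
      3 * Nat.card {c : Fin ((bitF ha).N (len2 x y)) → Fin ((bitF ha).e (len2 x y)) //
        ED x y ≤ (strat ha).fin ((bitF ha).ans x y) ((bitF ha).Q (len2 x y))
          (P315.H873.feedP [x.length, y.length] c) ∧
        (((strat ha).fin ((bitF ha).ans x y) ((bitF ha).Q (len2 x y))
          (P315.H873.feedP [x.length, y.length] c) : ℕ) : ℝ) ≤ (1 + ε) * ED x y} := by
  have key : ∀ (P : Par), P.Ok → P.lx = x.length → P.ly = y.length → 64 ≤ ε * 2 ^ P.le →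
      2 * Nat.card (Fin P.N → Fin P.E) ≤ 3 * Nat.card {u : Fin P.N → Fin P.E //
        ED x y ≤ outv P ((sysOf P (bv u) (bitOf x y (P.ly + 1))).D P.Tend) ∧
          (outv P ((sysOf P (bv u) (bitOf x y (P.ly + 1))).D P.Tend) : ℝ) ≤
            (1 + ε) * ED x y} := by
    intro P h1 h2 h3 h4
    have key2 : ∀ (c : ℕ → ℕ → ℕ) (F : Fam P c), c = cbit x y P.lx →
        2 * Nat.card (Fin P.N → Fin P.E) ≤ 3 * Nat.card {u : Fin P.N → Fin P.E //
          ED x y ≤ outv P ((F.sys (bv u)).D P.Tend) ∧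
            (outv P ((F.sys (bv u)).D P.Tend) : ℝ) ≤ (1 + ε) * ED x y} := by
      intro c F hc
      subst hc
      exact prob_main h1 x y h2 h3 F h4
    exact key2 _ (famOf P (bitOf x y (P.ly + 1))) (cOf_bitOf h2 h3)
  refine (key _ hOk rfl rfl hε).trans (le_of_eq ?_)
  refine congrArg (fun v => 3 * v) (Nat.card_congr (Equiv.subtypeEquivRight fun u => ?_))
  have hr := (run_eq ha (x := x) (y := y) hOk (cs := List.ofFn fun i => (u i : ℕ)) List.length_ofFn
    (by
      intro v hv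
      obtain ⟨i, rfl⟩ := List.mem_ofFn.1 hv
      exact (u i).isLt) le_rfl).1
  rw [sds_ofFn] at hr
  have e : (strat ha).fin ((bitF ha).ans x y) ((bitF ha).Q (len2 x y))
      (P315.H873.feedP [x.length, y.length] u) =
      outv (par a x.length y.length) ((sysOf (par a x.length y.length) (bv u)
        (bitOf x y ((par a x.length y.length).ly + 1))).D (par a x.length y.length).Tend) := hr
  exact (e ▸ Iff.rfl)

/-- The bound for the time. -/
def tim (a : ℕ → ℕ) (n0 K n : ℕ) : ℕ :=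
  if n < n0 then K else K + 1000 * (n + 1) + 4 * 2 ^ (lg1 n + K * vv a n * lg1 n / lg2 n)

/-- The accuracy. -/
noncomputable def acc (a : ℕ → ℕ) (n0 n : ℕ) : ℝ := if n < n0 then 0 else 64 / 2 ^ vv a n

/-- One program for the accuracy `64 / 2 ^ vv a n`, exact for short strings. -/
theorem solves (ha : PT ∅ a) (c : ℕ) : ∃ (k n0 K : ℕ) (P : Prog),
    (∀ n, n0 ≤ n → Bg n (lg3 n) (lg2 n) (lg1 n) ∧ c ≤ lg3 n) ∧
    P315.Top.Solves P
      (fun x y D => ED x y ≤ D ∧ (D : ℝ) ≤ (1 + acc a n0 (max x.length y.length)) * ED x y)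
      (fun n => tim a n0 K n) k := by
  obtain ⟨k₂, hk₂⟩ := bit_solves (strat ha)
  obtain ⟨n1, h1⟩ := bg_ex c
  obtain ⟨n0, hn0, hn1⟩ : ∃ n0, 1 ≤ n0 ∧ n1 ≤ n0 := ⟨n1 + 1, by omega, by omega⟩
  have hb := fun n (hn : n0 ≤ n) => (h1 n (hn1.trans hn)).1
  have hs := fun (x y : List ℕ) (hn : n0 ≤ max x.length y.length) => par_sh a (hb _ hn)
  obtain ⟨k₁, hk₁⟩ := hk₂ (bitF ha) n0 6 (fun x y => (par a x.length y.length).szS)
    (fun x y => (x.length + 1) * (y.length + 1)) hn0
    (fun x y hn => by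
      obtain ⟨a1, a2, a3, a4, a5, a6, a7, a8, a9, a10, -⟩ := (hs x y hn).fits (hb _ hn)
      exact ⟨a1, a2, a3, Nat.two_pow_pos _, a4, a5, a6, a7, a8, a9, a10,
        le_trans (Nat.le_mul_of_pos_left _ (Nat.succ_pos _)) a10⟩)
    (fun x y _ => ⟨(par a x.length y.length).lE, rfl⟩)
    (fun x y hn cs hcs hv => (run_eq ha ((hs x y hn).ok (hb _ hn)) hcs hv
      ((hs x y hn).fits (hb _ hn)).2.2.2.2.2.2.2.2.2.2).2)
  obtain ⟨K, hK1, hK2⟩ : ∃ K, 722 + (k₁ + 7 * k₂ + 4) ≤ K ∧
      360 * ((n0 + 1) * (2 * n0 + 1)) + 10 ≤ K := ⟨_, le_max_left _ _, le_max_right _ _⟩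
  obtain ⟨P, k, hP⟩ := hk₁
    (fun x y D => ED x y ≤ D ∧ (D : ℝ) ≤ (1 + acc a n0 (max x.length y.length)) * ED x y)
    (fun n => (tim a n0 K n : ℝ))
    (fun x y hn => Nat.cast_le.2 (by
      have e1 := (hs x y hn).cost (hb _ hn) k₁ k₂
      have e2 := (hs x y hn).expo (hb _ hn) (k₁ + 7 * k₂ + 4)
      have e3 := num_pow_le (e2.trans (Nat.add_le_add_left (Nat.div_le_div_right
        (Nat.mul_le_mul_right _ (Nat.mul_le_mul_right _ hK1))) _))
      have e4 : (bitF ha).cost k₁ k₂ x y (par a x.length y.length).szS ≤ _ := e1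
      rw [tim, if_neg (not_lt.2 hn)]
      omega))
    (fun n hn => Nat.cast_le.2 (by rw [tim, if_pos hn]; exact hK2))
    (fun x y => ⟨le_rfl, by
      have h0 : 0 ≤ acc a n0 (max x.length y.length) := by
        unfold acc
        split_ifs <;> positivity
      have : (0 : ℝ) ≤ acc a n0 (max x.length y.length) * ED x y :=
        mul_nonneg h0 (Nat.cast_nonneg _)
      linarith⟩)
    (fun x y hn => prob_ok ha ((hs x y hn).ok (hb _ hn)) (by
      rw [acc, if_neg (not_lt.2 hn), (hs x y hn).le, div_mul_cancel₀ _ (by positivity)]))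
  exact ⟨k, n0, K, P, fun n hn => h1 n (hn1.trans hn), hP⟩

end Vale.Agent.N315
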